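import Vale.Agent.P245.Push.Pins
import Vale.Agent.P245.Tighten

/-!
From the entropic inequality for level functions to the logarithmic Sobolev inequality: the
Poincare inequality comes with it, and a dyadic decomposition of a function at levels above twice
its second moment controls the entropy of its square.
-/

noncomputable section

open MeasureTheory Set Filter Topology
open scoped ENNReal

namespace Vale.Agent.P245

variable {n : ℕ} {μ : Measure (Space n)} {R : ℝ}

theorem log_four_bounds : 1 ≤ Real.log 4 ∧ Real.log 4 ≤ 2 := by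
  rw [show (4 : ℝ) = 2 * 2 by norm_num, Real.log_mul two_ne_zero two_ne_zero]
  constructor <;> linarith [Real.log_two_gt_d9, Real.log_two_lt_d9]

/-- The entropy density is controlled by the dyadic levels. -/
theorem sq_log_le_levels {s a : ℝ} (hs : 0 < s) (ha : a ^ 2 = 4 * s) (ha0 : 0 < a) (v : ℝ) :
    ∀ N : ℕ, |v| ≤ a * 2 ^ N → v ^ 2 * Real.log (v ^ 2 / s) ≤ 2 * v ^ 2 + ∑ k ∈ Finset.range N,
      if a * 2 ^ k < |v| then 4 * (a * 2 ^ k) ^ 2 * (2 * ((k : ℝ) + 2)) else 0 := by
  intro N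
  induction N with
  | zero =>
    intro h
    simp only [pow_zero, mul_one] at h
    rw [Finset.range_zero, Finset.sum_empty, add_zero, mul_comm 2]
    rcases (sq_nonneg v).eq_or_lt with h0 | h0
    · rw [← h0]; simp
    refine mul_le_mul_of_nonneg_left ?_ h0.le
    refine (Real.log_le_log (div_pos h0 hs) ?_).trans log_four_bounds.2
    rw [div_le_iff₀ hs, ← ha, ← sq_abs v]
    exact pow_le_pow_left₀ (abs_nonneg v) h 2
  | succ k ih =>
    intro h
    rw [Finset.sum_range_succ, ← add_assoc]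
    rcases le_or_gt |v| (a * 2 ^ k) with h' | h'
    · rw [if_neg (not_lt.2 h'), add_zero]; exact ih h'
    · rw [if_pos h']
      have hb : 0 < a * 2 ^ k := by positivity
      have h4 : (a * 2 ^ k) ^ 2 = 4 ^ (k + 1) * s := by
        rw [mul_pow, ha, ← pow_mul, mul_comm k 2, pow_mul, pow_succ]; norm_num; ring
      have hlo : (a * 2 ^ k) ^ 2 ≤ v ^ 2 := by
        rw [← sq_abs v]; exact pow_le_pow_left₀ hb.le h'.le 2
      have hup : v ^ 2 ≤ 4 * (a * 2 ^ k) ^ 2 := by
        rw [← sq_abs v]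
        exact (pow_le_pow_left₀ (abs_nonneg v) h 2).trans_eq (by ring)
      have hl0 : 0 ≤ Real.log (v ^ 2 / s) := by
        refine Real.log_nonneg ?_
        rw [le_div_iff₀ hs, one_mul]
        refine le_trans ?_ hlo
        rw [h4]; exact le_mul_of_one_le_left hs.le (one_le_pow₀ (by norm_num))
      have hl : Real.log (v ^ 2 / s) ≤ 2 * ((k : ℝ) + 2) := by
        have hv : 0 < v ^ 2 := lt_of_lt_of_le (by positivity) hlo
        refine (Real.log_le_log (div_pos hv hs) (show v ^ 2 / s ≤ 4 ^ (k + 2) from ?_)).trans ?_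
        · rw [div_le_iff₀ hs]; exact hup.trans_eq (by rw [h4, pow_succ 4 (k + 1)]; ring)
        · rw [Real.log_pow, mul_comm 2]
          push_cast
          exact mul_le_mul_of_nonneg_left log_four_bounds.2 (by positivity)
      have h3 : 0 ≤ ∑ j ∈ Finset.range k,
          if a * 2 ^ j < |v| then 4 * (a * 2 ^ j) ^ 2 * (2 * ((j : ℝ) + 2)) else 0 :=
        Finset.sum_nonneg fun j _ => by split_ifs <;> positivity
      nlinarith [mul_le_mul hup hl hl0 (by positivity), sq_nonneg v]

/-- A sum with a contracting recursion. -/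
theorem sum_le_of_rec {S D : ℕ → ℝ} {c : ℝ} (hS : ∀ k, 0 ≤ S k) (hD : ∀ k, 0 ≤ D k) (hc : 0 ≤ c)
    (h : ∀ k, S (k + 1) ≤ 3 / 8 * S k + c * D k) (N : ℕ) :
    ∑ k ∈ Finset.range N, S k ≤ 8 / 5 * (S 0 + c * ∑ k ∈ Finset.range N, D k) := by
  rcases N with _ | M
  · simpa using hS 0
  · have h1 : ∑ k ∈ Finset.range M, S (k + 1)
        ≤ 3 / 8 * ∑ k ∈ Finset.range M, S k + c * ∑ k ∈ Finset.range M, D k := by
      rw [Finset.mul_sum, Finset.mul_sum, ← Finset.sum_add_distrib]
      exact Finset.sum_le_sum fun k _ => h k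
    have h2 : ∑ k ∈ Finset.range M, S k ≤ ∑ k ∈ Finset.range (M + 1), S k := by
      rw [Finset.sum_range_succ]; linarith [hS M]
    have h3 : ∑ k ∈ Finset.range M, D k ≤ ∑ k ∈ Finset.range (M + 1), D k := by
      rw [Finset.sum_range_succ]; linarith [hD M]
    have h4 := Finset.sum_range_succ' S M
    have := mul_le_mul_of_nonneg_left h3 hc
    linarith

/-- The cut-off at a level, applied to the square. -/
def levFun (b : ℝ) (h : Space n → ℝ) (x : Space n) : ℝ :=
  Real.smoothTransition ((h x ^ 2 - b ^ 2) / (3 * b ^ 2))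

theorem levFun_zero {b : ℝ} {h : Space n → ℝ} {x : Space n} (hx : |h x| ≤ b) : levFun b h x = 0 := by
  refine Real.smoothTransition.zero_of_nonpos (div_nonpos_of_nonpos_of_nonneg ?_ (by positivity))
  linarith [pow_le_pow_left₀ (abs_nonneg (h x)) hx 2, sq_abs (h x)]

theorem levFun_one {b : ℝ} (hb : 0 < b) {h : Space n → ℝ} {x : Space n} (hx : 2 * b ≤ |h x|) :
    levFun b h x = 1 := by
  refine Real.smoothTransition.one_of_one_le ?_
  rw [le_div_iff₀ (by positivity)]
  nlinarith [pow_le_pow_left₀ (by positivity) hx 2, sq_abs (h x)]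

theorem contDiff_levFun (b : ℝ) {h : Space n → ℝ} (hh : ContDiff ℝ 2 h) :
    ContDiff ℝ 2 (levFun b h) :=
  Real.smoothTransition.contDiff.comp (((hh.pow 2).sub contDiff_const).div_const _)

theorem norm_fderiv_levFun {Cs : ℝ} (hCs : ∀ r, |deriv Real.smoothTransition r| ≤ Cs)
    (hz : ∀ r, r ≤ 0 ∨ 1 ≤ r → deriv Real.smoothTransition r = 0) {b : ℝ} (hb : 0 < b)
    {h : Space n → ℝ} (hh : ContDiff ℝ 2 h) (x : Space n) :
    b ^ 2 * ‖fderiv ℝ (levFun b h) x‖ ^ 2
      ≤ if b < |h x| ∧ |h x| < 2 * b then 2 * Cs ^ 2 * ‖fderiv ℝ h x‖ ^ 2 else 0 := by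
  set r := (h x ^ 2 - b ^ 2) / (3 * b ^ 2)
  have h1 : HasFDerivAt (fun y => (h y ^ 2 - b ^ 2) / (3 * b ^ 2))
      ((2 * h x / (3 * b ^ 2)) • fderiv ℝ h x) x := by
    have hd := (hh.differentiable two_ne_zero x).hasFDerivAt
    simp only [pow_two, div_eq_mul_inv]
    refine (((hd.mul hd).sub_const (b * b)).mul_const (3 * (b * b))⁻¹).congr_fderiv ?_
    refine ContinuousLinearMap.ext fun v => ?_
    simp only [smul_apply, add_apply, smul_eq_mul]
    ring
  have h2 : HasDerivAt Real.smoothTransition (deriv Real.smoothTransition r) r :=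
    ((Real.smoothTransition.contDiff (n := 1)).differentiable one_ne_zero _).hasDerivAt
  rw [show levFun b h = Real.smoothTransition ∘ fun y => (h y ^ 2 - b ^ 2) / (3 * b ^ 2) from rfl,
    (h2.comp_hasFDerivAt x h1).fderiv, norm_smul, norm_smul, Real.norm_eq_abs, Real.norm_eq_abs,
    mul_pow, mul_pow, sq_abs, sq_abs]
  split_ifs with hif
  · have hd2 : deriv Real.smoothTransition r ^ 2 ≤ Cs ^ 2 := by
      rw [← sq_abs]; exact pow_le_pow_left₀ (abs_nonneg _) (hCs r) 2
    have h3 : b ^ 2 * (2 * h x / (3 * b ^ 2)) ^ 2 ≤ 2 := by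
      have : h x ^ 2 ≤ 4 * b ^ 2 := by
        have := pow_le_pow_left₀ (abs_nonneg (h x)) hif.2.le 2
        rw [sq_abs] at this
        linarith
      rw [div_pow, ← mul_div_assoc, div_le_iff₀ (by positivity)]
      nlinarith [mul_le_mul_of_nonneg_left this (sq_nonneg b), sq_nonneg (b ^ 2)]
    calc b ^ 2 * (deriv Real.smoothTransition r ^ 2
          * ((2 * h x / (3 * b ^ 2)) ^ 2 * ‖fderiv ℝ h x‖ ^ 2))
        = deriv Real.smoothTransition r ^ 2 * (b ^ 2 * (2 * h x / (3 * b ^ 2)) ^ 2)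
          * ‖fderiv ℝ h x‖ ^ 2 := by ring
      _ ≤ Cs ^ 2 * 2 * ‖fderiv ℝ h x‖ ^ 2 :=
          mul_le_mul_of_nonneg_right (mul_le_mul hd2 h3 (by positivity) (sq_nonneg _)) (sq_nonneg _)
      _ = _ := by ring
  · have : deriv Real.smoothTransition r = 0 := by
      refine hz r ?_
      rw [not_and_or, not_lt, not_lt] at hif
      refine hif.imp (fun hle => div_nonpos_of_nonpos_of_nonneg ?_ (by positivity)) fun hle => ?_
      · linarith [pow_le_pow_left₀ (abs_nonneg (h x)) hle 2, sq_abs (h x)]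
      · rw [le_div_iff₀ (by positivity)]
        nlinarith [pow_le_pow_left₀ (by positivity) hle 2, sq_abs (h x)]
    rw [this]; simp

/-- The energies of the cut-offs at dyadic levels. -/
theorem dir_levels {Cs : ℝ} (hCs : ∀ r, |deriv Real.smoothTransition r| ≤ Cs)
    (hz : ∀ r, r ≤ 0 ∨ 1 ≤ r → deriv Real.smoothTransition r = 0) (hμ : Car μ R) {a : ℝ}
    (ha0 : 0 < a) {h : Space n → ℝ} (hh : ContDiff ℝ 2 h) (N : ℕ) :
    ∑ k ∈ Finset.range N, (a * 2 ^ k) ^ 2 * dir μ (levFun (a * 2 ^ k) h)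
      ≤ 2 * Cs ^ 2 * dir μ h := by
  have := hμ.prob
  have hi : ∀ w : Space n → ℝ, Continuous w → Integrable w μ := fun w hw =>
    hμ.integrable (adm_continuous hw R)
  simp only [dir, ← integral_const_mul]
  have hic : ∀ k : ℕ, Continuous fun x => (a * 2 ^ k) ^ 2 * ‖fderiv ℝ (levFun (a * 2 ^ k) h) x‖ ^ 2 :=
    fun k => (((contDiff_levFun _ hh).continuous_fderiv (by norm_num)).norm.pow 2).const_mul _
  rw [← integral_finsetSum _ fun k _ => hi _ (hic k)]
  refine integral_mono (hi _ (continuous_finsetSum _ fun k _ => hic k))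
    (hi _ (((hh.continuous_fderiv (by norm_num)).norm.pow 2).const_mul _)) fun x => ?_
  refine (Finset.sum_le_sum fun k _ =>
    norm_fderiv_levFun hCs hz (show 0 < a * 2 ^ k by positivity) hh x).trans ?_
  by_cases hx : ∃ k ∈ Finset.range N, a * 2 ^ k < |h x| ∧ |h x| < 2 * (a * 2 ^ k)
  · obtain ⟨k, hk, hk1, hk2⟩ := hx
    rw [Finset.sum_eq_single_of_mem k hk fun j _ hj => ?_, if_pos ⟨hk1, hk2⟩]
    refine if_neg fun hj' => ?_
    rcases lt_or_gt_of_ne hj with hjk | hjk
    · have := mul_le_mul_of_nonneg_left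
        (pow_le_pow_right₀ (one_le_two (α := ℝ)) (Nat.succ_le_of_lt hjk)) ha0.le
      rw [pow_succ] at this
      linarith [hj'.2]
    · have := mul_le_mul_of_nonneg_left
        (pow_le_pow_right₀ (one_le_two (α := ℝ)) (Nat.succ_le_of_lt hjk)) ha0.le
      rw [pow_succ] at this
      linarith [hj'.1]
  · push Not at hx
    rw [Finset.sum_eq_zero fun j hj => if_neg fun hj' => absurd (hx j hj hj'.1) (not_le.2 hj'.2)]
    positivity

/-- One step of the recursion between the masses of consecutive levels. -/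
theorem level_step (hμ : Car μ R) {K : ℝ} (hK : 0 ≤ K) (hL : LevelEnt μ K) {h : Space n → ℝ}
    (hh : ContDiff ℝ 2 h) {s a : ℝ} (hs : 0 < s) (hs' : ∫ x, h x ^ 2 ∂μ = s) (ha : a ^ 2 = 4 * s)
    (ha0 : 0 < a) (k : ℕ) :
    4 * (a * 2 ^ (k + 1)) ^ 2 * (2 * (((k + 1 : ℕ) : ℝ) + 2)) * μ.real {x | a * 2 ^ (k + 1) < |h x|}
      ≤ 3 / 8 * (4 * (a * 2 ^ k) ^ 2 * (2 * ((k : ℝ) + 2)) * μ.real {x | a * 2 ^ k < |h x|})
        + 96 * K * ((a * 2 ^ k) ^ 2 * dir μ (levFun (a * 2 ^ k) h)) := by
  have := hμ.prob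
  have hb : 0 < a * 2 ^ k := by positivity
  have hA : MeasurableSet {x | a * 2 ^ k < |h x|} :=
    measurableSet_lt measurable_const hh.continuous.abs.measurable
  have hcheb : (a * 2 ^ k) ^ 2 * μ.real {x | a * 2 ^ k < |h x|} ≤ s := by
    rw [← hs', mul_comm, ← smul_eq_mul, ← integral_indicator_const _ hA]
    refine integral_mono ((integrable_const _).indicator hA)
      (hμ.integrable (adm_continuous (hh.continuous.pow 2) R)) fun x => ?_
    by_cases hx : x ∈ {x | a * 2 ^ k < |h x|}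
    · rw [indicator_of_mem hx, ← sq_abs (h x)]
      exact pow_le_pow_left₀ hb.le (le_of_lt (show a * 2 ^ k < |h x| from hx)) 2
    · rw [indicator_of_notMem hx]; exact sq_nonneg _
  set p := μ.real {x | a * 2 ^ k < |h x|} with hp
  set p' := μ.real {x | a * 2 ^ (k + 1) < |h x|} with hp'
  have hd : 0 ≤ K * ((a * 2 ^ k) ^ 2 * dir μ (levFun (a * 2 ^ k) h)) :=
    mul_nonneg hK (mul_nonneg (sq_nonneg _) (dir_nonneg _))
  have e : a * 2 ^ (k + 1) = 2 * (a * 2 ^ k) := by ring
  have hp'0 : 0 ≤ p' := measureReal_nonneg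
  have hp0 : 0 ≤ p := measureReal_nonneg
  have hsub : p' ≤ p := measureReal_mono fun x hx => by
    have hx' : a * 2 ^ (k + 1) < |h x| := hx
    show a * 2 ^ k < |h x|
    linarith
  rw [e]
  push_cast
  rcases le_or_gt p' (p / 16) with hc | hc
  · have h2 := mul_le_mul_of_nonneg_left hc
      (show 0 ≤ 4 * (2 * (a * 2 ^ k)) ^ 2 * (2 * ((k : ℝ) + 1 + 2)) by positivity)
    have : 0 ≤ (a * 2 ^ k) ^ 2 * p * (k : ℝ) := by positivity
    nlinarith
  · have hppos : 0 < p := by linarith
    have h4 : (a * 2 ^ k) ^ 2 = 4 ^ (k + 1) * s := by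
      rw [mul_pow, ha, ← pow_mul, mul_comm k 2, pow_mul, pow_succ]; norm_num; ring
    have hp4 : 4 ^ (k + 1) * p ≤ 1 := by
      rw [h4] at hcheb
      exact le_of_mul_le_mul_right (by linarith : 4 ^ (k + 1) * p * s ≤ 1 * s) hs
    have hp12 : p ≤ 1 / 2 := by
      have : (4 : ℝ) ≤ 4 ^ (k + 1) := le_self_pow₀ (by norm_num) (by omega)
      nlinarith
    have hlev := hL (levFun (a * 2 ^ k) h) p (contDiff_levFun _ hh)
      (fun x => Real.smoothTransition.nonneg _) (fun x => Real.smoothTransition.le_one _) hppos hp12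
      (measureReal_mono fun x hx => by
        by_contra hx'
        exact hx (levFun_zero (not_lt.1 hx')))
      (le_trans hc.le (measureReal_mono fun x hx => levFun_one hb (e ▸ (le_of_lt hx))))
    have hlog : (k : ℝ) + 1 ≤ Real.log (2 / p) := by
      refine le_trans ?_ (Real.log_le_log (by positivity : (0 : ℝ) < 4 ^ (k + 1)) (by
        rw [le_div_iff₀ hppos]; linarith))
      rw [Real.log_pow]
      push_cast
      exact le_mul_of_one_le_right (by positivity) log_four_bounds.1
    have h5 : p' * (2 * ((k : ℝ) + 1 + 2)) ≤ 6 * (K * dir μ (levFun (a * 2 ^ k) h)) := by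
      calc p' * (2 * ((k : ℝ) + 1 + 2)) ≤ p * (6 * Real.log (2 / p)) :=
            mul_le_mul hsub (by linarith [(Nat.cast_nonneg k : (0 : ℝ) ≤ k)]) (by positivity) hp0
        _ ≤ _ := by linarith
    have h6 := mul_le_mul_of_nonneg_left h5 (show 0 ≤ 16 * (a * 2 ^ k) ^ 2 by positivity)
    have : 0 ≤ (a * 2 ^ k) ^ 2 * p * ((k : ℝ) + 2) := by positivity
    nlinarith

/-- The entropy of a square from the entropic level inequality. -/
theorem ent_levels : ∃ C : ℝ, 1 ≤ C ∧ ∀ (n : ℕ) (μ : Measure (Space n)) (R K : ℝ), Car μ R →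
    0 ≤ K → LevelEnt μ K → ∀ h : Space n → ℝ, ContDiff ℝ 2 h →
      ent μ (fun x => h x ^ 2) ≤ C * (K * dir μ h + ∫ x, h x ^ 2 ∂μ) := by
  obtain ⟨Cs, -, hCs, hz⟩ := cutoff_bound
  refine ⟨28 + 308 * Cs ^ 2, by nlinarith, fun n μ R K hμ hK hL h hh => ?_⟩
  have := hμ.prob
  have hc := hh.continuous
  have hi : ∀ w : Space n → ℝ, Continuous w → Integrable w μ := fun w hw =>
    hμ.integrable (adm_continuous hw R)
  have hd : 0 ≤ K * dir μ h := mul_nonneg hK (dir_nonneg h)
  rcases (show 0 ≤ ∫ x, h x ^ 2 ∂μ from integral_nonneg fun _ => sq_nonneg _).eq_or_lt with h0 | hs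
  · have hz' := (integral_eq_zero_iff_of_nonneg (fun x => sq_nonneg (h x)) (hi _ (by fun_prop))).1 h0.symm
    have e : ∫ x, h x ^ 2 * Real.log (h x ^ 2) ∂μ = 0 := integral_eq_zero_of_ae (by
      filter_upwards [hz'] with x hx
      simp at hx
      simp [hx])
    rw [ent, e, ← h0]
    simp only [zero_mul, sub_zero, add_zero]
    positivity
  set s := ∫ x, h x ^ 2 ∂μ with hsdef
  obtain ⟨a, ha0, ha⟩ : ∃ a : ℝ, 0 < a ∧ a ^ 2 = 4 * s :=
    ⟨√(4 * s), Real.sqrt_pos.2 (by linarith), Real.sq_sqrt (by linarith)⟩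
  obtain ⟨B, hB⟩ := (isCompact_closedBall (0 : Space n) R).exists_bound_of_continuousOn hc.continuousOn
  obtain ⟨N, hN⟩ := pow_unbounded_of_one_lt (B / a) (one_lt_two : (1 : ℝ) < 2)
  rw [div_lt_iff₀ ha0] at hN
  have hAm : ∀ k : ℕ, MeasurableSet {x | a * 2 ^ k < |h x|} :=
    fun k => measurableSet_lt measurable_const hc.abs.measurable
  have hind : ∀ k : ℕ, Integrable (fun x =>
      if a * 2 ^ k < |h x| then 4 * (a * 2 ^ k) ^ 2 * (2 * ((k : ℝ) + 2)) else 0) μ :=
    fun k => (integrable_const (4 * (a * 2 ^ k) ^ 2 * (2 * ((k : ℝ) + 2)))).indicator (hAm k)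
  have hlogc : Continuous fun x => h x ^ 2 * Real.log (h x ^ 2) :=
    Real.continuous_mul_log.comp (hc.pow 2)
  have epos : ∀ x, h x ^ 2 * Real.log (h x ^ 2) - h x ^ 2 * Real.log s
      = h x ^ 2 * Real.log (h x ^ 2 / s) := fun x => by
    rcases eq_or_ne (h x ^ 2) 0 with hx | hx
    · rw [hx]; simp
    · rw [Real.log_div hx hs.ne']; ring
  have hmain : ent μ (fun x => h x ^ 2) ≤ 2 * s + ∑ k ∈ Finset.range N,
      4 * (a * 2 ^ k) ^ 2 * (2 * ((k : ℝ) + 2)) * μ.real {x | a * 2 ^ k < |h x|} := by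
    have e : ent μ (fun x => h x ^ 2)
        = ∫ x, (h x ^ 2 * Real.log (h x ^ 2) - h x ^ 2 * Real.log s) ∂μ := by
      rw [integral_sub (hi _ hlogc) (hi _ (by fun_prop)), integral_mul_const, ent, ← hsdef]
    rw [e]
    refine (integral_mono_ae (hi _ (by fun_prop))
      (((hi _ (by fun_prop : Continuous fun x => 2 * h x ^ 2))).add
        (integrable_finsetSum (Finset.range N) fun k _ => hind k)) ?_).trans (le_of_eq ?_)
    · filter_upwards [hμ.bd] with x hx
      simp only [Pi.add_apply]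
      rw [epos]
      have := hB x (by simpa using hx)
      rw [Real.norm_eq_abs] at this
      exact sq_log_le_levels hs ha ha0 (h x) N (by linarith)
    · simp only [Pi.add_apply]
      rw [integral_add (hi _ (by fun_prop)) (integrable_finsetSum _ fun k _ => hind k),
        integral_const_mul, integral_finsetSum _ fun k _ => hind k, ← hsdef]
      congr 1
      refine Finset.sum_congr rfl fun k _ => ?_
      exact ((integral_indicator_const _ (hAm k)).trans (by rw [smul_eq_mul, mul_comm]))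
  have hS := sum_le_of_rec (c := 96 * K)
    (S := fun k => 4 * (a * 2 ^ k) ^ 2 * (2 * ((k : ℝ) + 2)) * μ.real {x | a * 2 ^ k < |h x|})
    (D := fun k => (a * 2 ^ k) ^ 2 * dir μ (levFun (a * 2 ^ k) h))
    (fun k => by positivity) (fun k => mul_nonneg (sq_nonneg _) (dir_nonneg _)) (by linarith)
    (fun k => level_step hμ hK hL hh hs rfl ha ha0 k) N
  have hD := mul_le_mul_of_nonneg_left (dir_levels hCs hz hμ ha0 hh N) hK
  have h0 : a ^ 2 * μ.real {x | a < |h x|} ≤ s := by
    rw [hsdef, mul_comm, ← smul_eq_mul, ← integral_indicator_const _ (by simpa using hAm 0)]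
    refine integral_mono ((integrable_const _).indicator (by simpa using hAm 0)) (hi _ (by fun_prop))
      fun x => ?_
    by_cases hx : x ∈ {x | a < |h x|}
    · rw [indicator_of_mem hx, ← sq_abs (h x)]
      exact pow_le_pow_left₀ ha0.le (le_of_lt (show a < |h x| from hx)) 2
    · rw [indicator_of_notMem hx]; exact sq_nonneg _
  simp only [pow_zero, mul_one, Nat.cast_zero, zero_add] at hS
  have : 0 ≤ Cs ^ 2 * s := by positivity
  nlinarith

/-- The logarithmic Sobolev inequality from the entropic level inequality. -/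
theorem entOfLevelEnt : EntOfLevelEnt := by
  obtain ⟨C, hC, hent⟩ := ent_levels
  obtain ⟨P, hP, hpoi⟩ := poincare_of_level
  refine ⟨9 / 4 * C * (1 + P) + 37 * P, by nlinarith, fun n μ R K hμ hK hL f hf => ?_⟩
  have := hμ.prob
  have hLB : LevelBound μ K := fun g p hg h0 h1 hp2 hsupp hone => by
    rcases le_or_gt p 0 with hp | hp
    · exact hp.trans (mul_nonneg hK (dir_nonneg g))
    · refine le_trans (le_mul_of_one_le_right hp.le ?_) (hL g p hg h0 h1 hp hp2 hsupp hone)
      refine log_four_bounds.1.trans (Real.log_le_log (by norm_num) ?_)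
      rw [le_div_iff₀ hp]; linarith
  have hv := hpoi n μ R K hμ hK hLB f hf
  have he := hent n μ R K hμ hK hL (fun x => f x - ∫ y, f y ∂μ) (hf.sub contDiff_const)
  have hd : dir μ (fun x => f x - ∫ y, f y ∂μ) = dir μ f := by simp [dir, fderiv_sub_const]
  rw [hd, ← var] at he
  have ht := ent_tighten hμ hf.continuous
  nlinarith [mul_le_mul_of_nonneg_left hv (show 0 ≤ C by linarith)]

end Vale.Agent.P245
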