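import Vale.Agent.P245.Push.Pins

/-!
Gaussian integrals with a quadratic weight, by diagonalisation and a linear change of variables.
-/

noncomputable section

open MeasureTheory Set Filter Topology Matrix
open scoped ENNReal

namespace Vale.Agent.P245

/-- A change of variables by an invertible linear map. -/
theorem integral_linear_subst {n : ℕ} (f : Space n →ₗ[ℝ] Space n) (hf : LinearMap.det f ≠ 0)
    (G : Space n → ℝ) : ∫ x, G x = |LinearMap.det f| * ∫ x, G (f x) := by
  have hdet := hf
  set e : Space n ≃L[ℝ] Space n :=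
    (f.equivOfDetNeZero hdet).toContinuousLinearEquiv with he
  have hef : ∀ x, e x = f x := fun x => rfl
  have hmap : Measure.map f (volume : Measure (Space n))
      = ENNReal.ofReal |(LinearMap.det f)⁻¹| • volume :=
    Measure.map_linearMap_addHaar_eq_smul_addHaar volume hdet
  have h := integral_map_equiv (μ := (volume : Measure (Space n))) e.toHomeomorph.toMeasurableEquiv G
  have e1 : (⇑e.toHomeomorph.toMeasurableEquiv : Space n → Space n) = ⇑f := funext hef
  rw [e1, hmap, integral_smul_measure, ENNReal.toReal_ofReal (abs_nonneg _), smul_eq_mul] at h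
  rw [← h, ← mul_assoc, ← abs_mul, mul_inv_cancel₀ hdet, abs_one, one_mul]

/-- A Gaussian integral with a quadratic weight. -/
theorem gaussQuad : GaussQuad := by
  intro n U c hUl hUr hc u
  set d : Fin n → ℝ := fun i => (√(1 - c i))⁻¹ with hd
  have hpos : ∀ i, 0 < √(1 - c i) := fun i => Real.sqrt_pos.2 (by linarith [hc i])
  set f : Space n →ₗ[ℝ] Space n := Matrix.toEuclideanLin (U * diagonal d) with hf
  have hU1 : |U.det| = 1 := by
    have h := congrArg Matrix.det hUl
    rw [det_mul, det_transpose, det_one] at h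
    rcases mul_self_eq_one_iff.1 h with h' | h' <;> simp [h']
  have hdet : |LinearMap.det f| = (∏ i, √(1 - c i))⁻¹ := by
    rw [hf, show (Matrix.toEuclideanLin : Mat n ≃ₗ[ℝ] Space n →ₗ[ℝ] Space n) = _ from
        Matrix.toLpLin_eq_toLin 2 2, LinearMap.det_toLin, det_mul, det_diagonal, abs_mul, hU1,
      one_mul, ← Finset.prod_inv_distrib, abs_of_nonneg]
    exact Finset.prod_nonneg fun i _ => inv_nonneg.2 (hpos i).le
  have hne : LinearMap.det f ≠ 0 := fun h => by
    rw [h, abs_zero] at hdet
    exact (inv_pos.2 (Finset.prod_pos fun i _ => hpos i)).ne hdet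
  rw [integral_gam, integral_gam, integral_linear_subst f hne, hdet]
  congr 1
  refine integral_congr_ae (ae_of_all _ fun g => ?_)
  have hfg : f g = WithLp.toLp 2 ((U * diagonal d) *ᵥ g.ofLp) := rfl
  beta_reduce
  rw [hfg]
  set h : Space n := WithLp.toLp 2 ((U * diagonal d) *ᵥ g.ofLp) with hh
  have hsum : ∀ v : Fin n → ℝ, h.ofLp ⬝ᵥ (U * diagonal v * Uᵀ) *ᵥ h.ofLp
      = ∑ i, v i * (d i * g i) ^ 2 := by
    intro v
    have e : Uᵀ *ᵥ h.ofLp = diagonal d *ᵥ g.ofLp := by
      simp only [hh]
      rw [Matrix.mulVec_mulVec, ← Matrix.mul_assoc, hUl, Matrix.one_mul]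
    rw [← Matrix.mulVec_mulVec, ← Matrix.mulVec_mulVec, Matrix.dotProduct_mulVec,
      ← Matrix.mulVec_transpose, e]
    simp only [dotProduct, Matrix.mulVec_diagonal]
    exact Finset.sum_congr rfl fun i _ => by ring
  have hn : ‖h‖ ^ 2 = ∑ i, 1 * (d i * g i) ^ 2 := by
    rw [← hsum (fun _ => 1), diagonal_one, Matrix.mul_one, hUr, Matrix.one_mulVec,
      EuclideanSpace.norm_sq_eq]
    simp [dotProduct, sq]
  have hg : ‖g‖ ^ 2 = ∑ i, (1 - c i) * (d i * g i) ^ 2 := by
    rw [EuclideanSpace.norm_sq_eq]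
    refine Finset.sum_congr rfl fun i _ => ?_
    have h1 := hpos i
    rw [Real.norm_eq_abs, sq_abs, hd, mul_pow, inv_pow, Real.sq_sqrt (by linarith [hc i])]
    have : 1 - c i ≠ 0 := by linarith [hc i]
    field_simp
  have key : gd h * Real.exp (1 / 2 * (h.ofLp ⬝ᵥ (U * diagonal c * Uᵀ) *ᵥ h.ofLp)) = gd g := by
    rw [hsum c]
    simp only [gd, mul_assoc, ← Real.exp_add]
    congr 2
    rw [hn, hg]
    simp only [Finset.mul_sum, ← Finset.sum_add_distrib]
    exact Finset.sum_congr rfl fun i _ => by ring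
  linear_combination u h * key

end Vale.Agent.P245
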