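import Vale.Agent.P245.Push.Pins
import Vale.Agent.P245.Defective

/-!
The entropic level inequality from concentration and a Poincare inequality: stop the channel at
time of order `1 / K`, where the square root of the logarithm of the tilted mass is Lipschitz and
hence concentrated.
-/

noncomputable section

open MeasureTheory Set Filter Topology
open scoped ENNReal

namespace Vale.Agent.P245

variable {n : ℕ} {μ : Measure (Space n)} {R : ℝ}

/-- Translation of the Gaussian measure. -/
theorem gam_shift (G : Space n → ℝ) (v : Space n) :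
    ∫ g, G g * Real.exp (inner ℝ v g - ‖v‖ ^ 2 / 2) ∂gam n = ∫ g, G (g + v) ∂gam n := by
  rw [integral_gam, integral_gam, ← integral_add_right_eq_self _ v]
  refine integral_congr_ae (ae_of_all _ fun g => ?_)
  have e : gd (g + v) * Real.exp (inner ℝ v (g + v) - ‖v‖ ^ 2 / 2) = gd g := by
    simp only [gd, mul_assoc, ← Real.exp_add]
    congr 2
    rw [norm_add_sq_real, inner_add_right, real_inner_self_eq_norm_sq, real_inner_comm v g]
    ring
  beta_reduce
  linear_combination G (g + v) * e

/-- Integrability on the product with the Gaussian measure. -/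
theorem integrable_gam_prod (hμ : Car μ R) {F : Space n → Space n → ℝ}
    (hc : Continuous (Function.uncurry F)) {A c : ℝ}
    (h : ∀ g x, ‖x‖ ≤ R → |F g x| ≤ A * Real.exp (c * ‖g‖)) :
    Integrable (Function.uncurry F) ((gam n).prod μ) := by
  have := hμ.prob
  refine Integrable.mono' (((integrable_exp_norm c).const_mul A).comp_fst μ) hc.aestronglyMeasurable ?_
  filter_upwards [Measure.quasiMeasurePreserving_snd.ae hμ.bd] with z hz
  exact h z.1 z.2 hz

/-- Expectations against a tilted mean, as shifted Gaussian integrals. -/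
theorem shift_identity (hμ : Car μ R) {t : ℝ} (ht : 0 ≤ t) {φ G : Space n → ℝ} (hφ : Continuous φ)
    (hG : Continuous G) (hT : Tame G) :
    ∫ g, G g * Nf μ φ (t, √t • g) ∂gam n = ∫ x, φ x * ∫ g, G (g + √t • x) ∂gam n ∂μ := by
  have := hμ.prob
  obtain ⟨A, c, hA⟩ := hT
  obtain ⟨B, hB⟩ := (isCompact_closedBall (0 : Space n) R).exists_bound_of_continuousOn hφ.continuousOn
  set F : Space n → Space n → ℝ := fun g x => G g * (φ x * Real.exp (ker t (√t • g) x)) with hF
  have hFc : Continuous (Function.uncurry F) := by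
    simp only [hF, Function.uncurry_def, ker]; fun_prop
  have hFi : Integrable (Function.uncurry F) ((gam n).prod μ) := by
    refine integrable_gam_prod hμ hFc (A := A * (B * 1)) (c := c + R * √t) fun g x hx => ?_
    have hker : Real.exp (ker t (√t • g) x) ≤ 1 * Real.exp (R * √t * ‖g‖) := by
      rw [one_mul]
      refine Real.exp_le_exp.2 ?_
      have h1 := real_inner_le_norm (√t • g) x
      rw [norm_smul, Real.norm_eq_abs, abs_of_nonneg (Real.sqrt_nonneg t)] at h1
      have h2 : √t * ‖g‖ * ‖x‖ ≤ √t * ‖g‖ * R :=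
        mul_le_mul_of_nonneg_left hx (mul_nonneg (Real.sqrt_nonneg t) (norm_nonneg g))
      unfold ker
      nlinarith [sq_nonneg ‖x‖]
    have hB' : |φ x| ≤ B := hB x (by simpa using hx)
    rw [hF, abs_mul, abs_mul, abs_of_pos (Real.exp_pos _)]
    calc |G g| * (|φ x| * Real.exp (ker t (√t • g) x))
        ≤ A * Real.exp (c * ‖g‖) * (B * (1 * Real.exp (R * √t * ‖g‖))) :=
          mul_le_mul (hA g) (mul_le_mul hB' hker (Real.exp_pos _).le ((abs_nonneg _).trans hB'))
            (by positivity) ((abs_nonneg _).trans (hA g))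
      _ = _ := by rw [add_mul, Real.exp_add]; ring
  have h := integral_integral_swap hFi
  simp only [hF] at h
  calc ∫ g, G g * Nf μ φ (t, √t • g) ∂gam n
      = ∫ g, ∫ x, G g * (φ x * Real.exp (ker t (√t • g) x)) ∂μ ∂gam n := by
        simp only [Nf, integral_const_mul]
    _ = _ := h
    _ = _ := by
        refine integral_congr_ae (ae_of_all _ fun x => ?_)
        beta_reduce
        rw [← gam_shift G (√t • x), ← integral_const_mul]
        refine integral_congr_ae (ae_of_all _ fun g => ?_)
        have e : ker t (√t • g) x = inner ℝ (√t • x) g - ‖√t • x‖ ^ 2 / 2 := by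
          simp only [ker, real_inner_smul_left, norm_smul, Real.norm_eq_abs, mul_pow, sq_abs,
            Real.sq_sqrt ht, real_inner_comm g x]
        beta_reduce
        rw [e]
        ring

/-- A differentiable function with gradient at most `l` is `l`-Lipschitz. -/
theorem abs_sub_le_of_grad {U : Space n → ℝ} {G : Space n → Space n} {l : ℝ}
    (hU : ∀ x, HasFDerivAt U (innerSL ℝ (G x)) x) (hG : ∀ x, ‖G x‖ ≤ l) (x y : Space n) :
    |U x - U y| ≤ l * ‖x - y‖ := by
  rw [← Real.norm_eq_abs]
  exact convex_univ.norm_image_sub_le_of_norm_hasFDerivWithin_le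
    (fun z _ => (hU z).hasFDerivWithinAt) (fun z _ => by rw [innerSL_apply_norm]; exact hG z)
    (mem_univ y) (mem_univ x)

/-- The square root of the logarithm of a tilted mass is Lipschitz. -/
theorem sqrt_log_lipschitz (hs : IsSLC 0 μ) (hμ : Car μ R) {w : Space n → ℝ} (hw : Continuous w)
    (h0 : ∀ x, 0 < w x) (h2 : ∀ x, w x ≤ 2) {t : ℝ} (ht : 0 < t) :
    ∃ (U : Space n → ℝ) (G : Space n → Space n),
      (∀ g, 0 < U g ∧ U g ^ 2 = Real.log (4 / M μ w (t, √t • g))) ∧ ContDiff ℝ 2 U ∧
      Continuous G ∧ (∀ g, HasFDerivAt U (innerSL ℝ (G g)) g) ∧ ∀ g, ‖G g‖ ≤ 1 := by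
  have hN : ∀ q, 0 < Nf μ w q := Nf_pos hμ hw h0
  have hZ : ∀ q, 0 < Zf μ q := Zf_pos hμ
  have h10 : ∀ _x : Space n, (0 : ℝ) < 1 := fun _ => one_pos
  set l : Space n → ℝ := fun g =>
    Real.log 4 - (Real.log (Nf μ w (t, √t • g)) - Real.log (Zf μ (t, √t • g))) with hldef
  have hl : ∀ g, l g = Real.log (4 / M μ w (t, √t • g)) := fun g => by
    rw [hldef, M, Real.log_div (by norm_num) (div_pos (hN _) (hZ _)).ne',
      Real.log_div (hN _).ne' (hZ _).ne']
  have hl0 : ∀ g, 0 < l g := fun g => by
    have hM : M μ w (t, √t • g) ≤ 2 := (le_abs_self _).trans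
      (abs_M_le hμ hw.measurable (fun x _ => by rw [abs_of_pos (h0 x)]; exact h2 x) _)
    have hM0 : 0 < M μ w (t, √t • g) := div_pos (hN _) (hZ _)
    rw [hl]
    exact Real.log_pos (by rw [lt_div_iff₀ hM0]; linarith)
  set D : Space n → Space n := fun g =>
    √t • (mid μ w (t, √t • g) - mid μ (fun _ => 1) (t, √t • g)) with hDdef
  have hdl : ∀ g, HasFDerivAt l (-innerSL ℝ (D g)) g := fun g => by
    refine (((hasFDerivAt_logNf hμ hw h0 t g).sub
      (hasFDerivAt_logNf hμ continuous_const h10 t g)).const_sub (Real.log 4)).congr_fderiv ?_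
    simp [hDdef, smul_sub, map_sub]
  have hlc : ContDiff ℝ 2 l := contDiff_const.sub
    ((contDiff_logNf hμ hw h0 t).sub (contDiff_logNf hμ continuous_const h10 t))
  set U : Space n → ℝ := fun g => √(l g) with hUdef
  have hU0 : ∀ g, 0 < U g := fun g => Real.sqrt_pos.2 (hl0 g)
  have hDc : Continuous D := by
    have := continuous_mid hμ hw h0
    have := continuous_mid hμ (continuous_const (y := (1 : ℝ))) h10
    simp only [hDdef]; fun_prop
  have hU : ContDiff ℝ 2 U := hlc.sqrt fun g => (hl0 g).ne'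
  refine ⟨U, fun g => (-(1 / (2 * U g))) • D g, fun g => ⟨hU0 g, ?_⟩, hU,
    ((continuous_const.div (continuous_const.mul hU.continuous)
      fun g => (mul_pos two_pos (hU0 g)).ne').neg).smul hDc, fun g => ?_, fun g => ?_⟩
  · rw [hUdef, Real.sq_sqrt (hl0 g).le, hl]
  · refine ((hdl g).sqrt (hl0 g).ne').congr_fderiv ?_
    refine ContinuousLinearMap.ext fun v => ?_
    simp only [smul_apply, neg_apply, innerSL_apply_apply, real_inner_smul_left, smul_eq_mul, hUdef]
    ring
  · set q : Par n := (t, √t • g)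
    have hM0 : 0 < M μ w q := div_pos (hN q) (hZ q)
    have hν := hμ.tlt q
    have := hν.prob
    have he : ent (tlt μ q) w ≤ M μ w q * l g := by
      have hi : ∀ v : Space n → ℝ, Continuous v → Integrable v (tlt μ q) :=
        fun v hv => hν.integrable (adm_continuous hv R)
      have h3 : ∫ x, w x * Real.log (w x) ∂tlt μ q ≤ M μ w q * Real.log 2 := by
        rw [M_eq, ← integral_mul_const]
        exact integral_mono (hi _ (Real.continuous_mul_log.comp hw)) (hi _ (by fun_prop))
          fun x => mul_le_mul_of_nonneg_left (Real.log_le_log (h0 x) (h2 x)) (h0 x).le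
      rw [ent, ← M_eq w q, hl, Real.log_div (by norm_num) hM0.ne']
      have h24 := mul_le_mul_of_nonneg_left
        (Real.log_le_log two_pos (show (2 : ℝ) ≤ 4 by norm_num)) hM0.le
      rw [mul_sub]
      linarith
    have h4 : t * ‖mid μ w q - mid μ (fun _ => 1) q‖ ^ 2 * M μ w q ≤ 2 * ent (tlt μ q) w :=
      mid_sub_sq_le hs hμ hw h0 (p := q) ht
    have h5 : t * ‖mid μ w q - mid μ (fun _ => 1) q‖ ^ 2 ≤ 2 * l g :=
      le_of_mul_le_mul_right (h4.trans (by linarith)) hM0
    have hD2 : ‖D g‖ ^ 2 ≤ 2 * l g := by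
      simpa [hDdef, norm_smul, mul_pow, Real.sq_sqrt ht.le] using h5
    rw [norm_smul, Real.norm_eq_abs, abs_neg, abs_of_pos (div_pos one_pos (mul_pos two_pos (hU0 g))),
      div_mul_eq_mul_div, one_mul, div_le_one (mul_pos two_pos (hU0 g))]
    refine nonneg_le_nonneg_of_sq_le_sq (mul_pos two_pos (hU0 g)).le ?_
    have hsq : U g * U g = l g := Real.mul_self_sqrt (hl0 g).le
    nlinarith [hl0 g]

/-- The mass where the Lipschitz function falls below a level, seen from the function `φ`. -/
theorem low_level_le (hμ : Car μ R) {K : ℝ} (hconc : Conc μ K K) {t : ℝ} (ht : 0 < t)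
    {U : Space n → ℝ} {G : Space n → Space n} (hU : ContDiff ℝ 2 U)
    (hG : Continuous G) (hd : ∀ g, HasFDerivAt U (innerSL ℝ (G g)) g) (hl : ∀ g, ‖G g‖ ≤ 1)
    {φ : Space n → ℝ} (hφ : Continuous φ) (hφ0 : ∀ x, 0 ≤ φ x) (hφ1 : ∀ x, φ x ≤ 1)
    {a s₁ s₂ : ℝ} (ha : 1 ≤ a) (hs₁ : 0 ≤ s₁) (hs₂ : 0 ≤ s₂)
    (hE : 4 * a ≤ ∫ g, U g * Zf μ (t, √t • g) ∂gam n) :
    ∫ g, Real.smoothTransition (a + 1 - U g) * Nf μ φ (t, √t • g) ∂gam n
      ≤ Real.exp (K + K * t * s₁ ^ 2 - s₁ * a)
        + (∫ x, φ x ∂μ) * Real.exp (2 * s₂ ^ 2 - s₂ * a) := by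
  have := hμ.prob
  have hUc := hU.continuous
  have hlip := abs_sub_le_of_grad hd hl
  have hsup : ∀ g, |U g| ≤ |U 0| + ‖g‖ := fun g => by
    have := hlip g 0
    rw [one_mul, sub_zero] at this
    linarith [abs_sub_abs_le_abs_sub (U g) (U 0)]
  have tU : Tame U := Tame.of_lin (A := |U 0|) (B := 1) fun g => by simpa using hsup g
  have iγ : ∀ v : Space n, Integrable (fun g => U (g + v)) (gam n) := fun v =>
    (Tame.of_lin (A := |U 0| + ‖v‖) (B := 1) fun g => by
      linarith [hsup (g + v), norm_add_le g v]).integrable (by fun_prop)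
  set T : Space n → ℝ := fun g => Real.smoothTransition (a + 1 - U g) with hTdef
  have hTc : Continuous T := Real.smoothTransition.continuous.comp (continuous_const.sub hUc)
  have hT0 : ∀ g, 0 ≤ T g := fun g => Real.smoothTransition.nonneg _
  have hT1 : ∀ g, T g ≤ 1 := fun g => Real.smoothTransition.le_one _
  have hi : ∀ v : Space n → ℝ, Continuous v → Integrable v μ :=
    fun v hv => hμ.integrable (adm_continuous hv R)
  rw [shift_identity hμ ht.le hφ hTc (Tame.of_bdd (C := 1) fun g => by
    rw [abs_of_nonneg (hT0 g)]; exact hT1 g)]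
  set E := ∫ g, U g * Zf μ (t, √t • g) ∂gam n with hEdef
  set m : Space n → ℝ := fun g => ∫ x, U (g + √t • x) ∂μ with hmdef
  have hm : ∀ g g', |m g - m g'| ≤ ‖g - g'‖ := fun g g' => by
    rw [hmdef, ← integral_sub (hi _ (by fun_prop)) (hi _ (by fun_prop))]
    refine abs_integral_le_integral_abs.trans ((integral_mono (hi _ (by fun_prop))
      (integrable_const ‖g - g'‖) fun x => ?_).trans_eq (by simp))
    simpa using hlip (g + √t • x) (g' + √t • x)
  have hmc : Continuous m := (LipschitzWith.of_dist_le_mul (K := 1) fun g g' => by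
    simpa [dist_eq_norm] using hm g g').continuous
  have hmsup : ∀ g, |m g| ≤ |m 0| + ‖g‖ := fun g => by
    have := hm g 0
    rw [sub_zero] at this
    linarith [abs_sub_abs_le_abs_sub (m g) (m 0)]
  set α : Space n → ℝ := fun x => ∫ g, U (g + √t • x) ∂gam n with hαdef
  have hα : ∀ x y, |α x - α y| ≤ √t * ‖x - y‖ := fun x y => by
    rw [hαdef, ← integral_sub (iγ _) (iγ _)]
    refine abs_integral_le_integral_abs.trans ((integral_mono ((iγ _).sub (iγ _)).abs
      (integrable_const (√t * ‖x - y‖)) fun g => ?_).trans_eq (by simp))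
    simpa [← smul_sub, norm_smul, abs_of_nonneg (Real.sqrt_nonneg t)] using
      hlip (g + √t • x) (g + √t • y)
  have hαc : Continuous α := (LipschitzWith.of_dist_le_mul (K := ⟨√t, Real.sqrt_nonneg t⟩)
    fun x y => by simpa only [dist_eq_norm, NNReal.coe_mk, Real.norm_eq_abs] using! hα x y).continuous
  have hαE : ∫ x, α x ∂μ = E := by
    rw [hEdef]
    simp only [Zf]
    rw [shift_identity hμ ht.le continuous_const hUc tU]
    simp [hαdef]
  set Φ := ∫ x, φ x ∂μ with hΦ
  have hΦ0 : 0 ≤ Φ := integral_nonneg hφ0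
  -- the pointwise bound for each Gaussian vector
  have hinner : ∀ g, ∫ x, φ x * T (g + √t • x) ∂μ
      ≤ Real.exp (K + K * t * s₁ ^ 2 - s₁ * a) + Φ * Real.exp (-s₂ * a) * Real.exp (s₂ * (E - m g)) := by
    intro g
    set e₂ := Real.exp (-s₂ * a) * Real.exp (s₂ * (E - m g)) with he₂
    have hpt : ∀ x, φ x * T (g + √t • x)
        ≤ Real.exp (-s₁ * a) * Real.exp (-s₁ * (U (g + √t • x) - m g)) + φ x * e₂ := by
      intro x
      set z := U (g + √t • x)
      have hp1 : 0 ≤ Real.exp (-s₁ * a) * Real.exp (-s₁ * (z - m g)) := by positivity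
      have hp2 : 0 ≤ φ x * e₂ := mul_nonneg (hφ0 x) (by positivity)
      rcases le_or_gt (a + 1) z with hz | hz
      · have h0 : T (g + √t • x) = 0 := Real.smoothTransition.zero_of_nonpos (by linarith)
        rw [h0, mul_zero]; positivity
      · have hTle : φ x * T (g + √t • x) ≤ φ x := mul_le_of_le_one_right (hφ0 x) (hT1 _)
        rcases le_or_gt (z - m g) (-a) with h | h
        · have : 1 ≤ Real.exp (-s₁ * a) * Real.exp (-s₁ * (z - m g)) := by
            rw [← Real.exp_add]
            exact Real.one_le_exp (by nlinarith)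
          linarith [hφ1 x]
        · have : 1 ≤ e₂ := by
            rw [he₂, ← Real.exp_add]
            exact Real.one_le_exp (by nlinarith)
          linarith [le_mul_of_one_le_right (hφ0 x) this]
    refine (integral_mono (hi _ (by fun_prop)) (hi _ (by fun_prop)) hpt).trans ?_
    rw [integral_add (hi _ (by fun_prop)) (hi _ (by fun_prop)), integral_const_mul, integral_mul_const,
      ← hΦ, he₂, ← mul_assoc Φ]
    refine add_le_add ?_ le_rfl
    have hst : 0 < √t := Real.sqrt_pos.2 ht
    have hf : ContDiff ℝ 2 fun x => (√t)⁻¹ * U (g + √t • x) :=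
      contDiff_const.mul (hU.comp (contDiff_const.add (contDiff_const_smul √t)))
    have hfd : ∀ x, ‖fderiv ℝ (fun x => (√t)⁻¹ * U (g + √t • x)) x‖ ≤ 1 := fun x => by
      have h1 : HasFDerivAt (fun x : Space n => g + √t • x)
          (√t • ContinuousLinearMap.id ℝ (Space n)) x :=
        ((hasFDerivAt_id x).const_smul √t).const_add g
      have h2 := ((hd (g + √t • x)).comp x h1).const_mul (√t)⁻¹
      rw [Function.comp_def] at h2
      rw [h2.fderiv, ContinuousLinearMap.comp_smul, ContinuousLinearMap.comp_id, smul_smul,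
        inv_mul_cancel₀ hst.ne', one_smul, innerSL_apply_norm]
      exact hl _
    have hc := hconc _ hf hfd (-s₁ * √t)
    rw [integral_const_mul] at hc
    have e : ∀ x, -s₁ * √t * ((√t)⁻¹ * U (g + √t • x) - (√t)⁻¹ * m g)
        = -s₁ * (U (g + √t • x) - m g) := fun x => by field_simp
    simp only [hmdef] at e
    simp only [e] at hc
    refine (mul_le_mul_of_nonneg_left hc (Real.exp_pos _).le).trans_eq ?_
    rw [← Real.exp_add]
    congr 1
    rw [mul_pow, neg_sq, Real.sq_sqrt ht.le]
    ring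
  -- the deviation of the averaged function
  have hdev : ∫ g, Real.exp (s₂ * (E - m g)) ∂gam n ≤ Real.exp (2 * s₂ ^ 2) := by
    set F : Space n → Space n → ℝ := fun g x => Real.exp (s₂ * (α x - U (g + √t • x))) with hFdef
    have hFc : Continuous (Function.uncurry F) := by
      simp only [hFdef, Function.uncurry_def]; fun_prop
    have hFi : Integrable (Function.uncurry F) ((gam n).prod μ) := by
      obtain ⟨B, hB⟩ := (isCompact_closedBall (0 : Space n) R).exists_bound_of_continuousOn
        hαc.continuousOn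
      refine integrable_gam_prod hμ hFc (A := Real.exp (s₂ * (B + |U 0| + √t * R))) (c := s₂)
        fun g x hx => ?_
      rw [hFdef, abs_of_pos (Real.exp_pos _), ← Real.exp_add]
      refine Real.exp_le_exp.2 ?_
      have h1 := hB x (by simpa using hx)
      rw [Real.norm_eq_abs] at h1
      have h2 : ‖g + √t • x‖ ≤ ‖g‖ + √t * R := by
        refine (norm_add_le _ _).trans (add_le_add le_rfl ?_)
        rw [norm_smul, Real.norm_eq_abs, abs_of_nonneg (Real.sqrt_nonneg t)]
        exact mul_le_mul_of_nonneg_left hx (Real.sqrt_nonneg t)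
      rw [← mul_add]
      refine mul_le_mul_of_nonneg_left ?_ hs₂
      linarith [le_abs_self (α x), neg_abs_le (U (g + √t • x)), hsup (g + √t • x)]
    have hjen : ∀ g, Real.exp (s₂ * (E - m g)) ≤ ∫ x, F g x ∂μ := fun g => by
      have hc : Continuous fun x => s₂ * (α x - U (g + √t • x)) := by fun_prop
      have e : s₂ * (E - m g) = ∫ x, s₂ * (α x - U (g + √t • x)) ∂μ := by
        rw [integral_const_mul, integral_sub (hi _ hαc) (hi _ (by fun_prop)), hαE]
      rw [e]
      exact convexOn_exp.map_integral_le Real.continuous_exp.continuousOn isClosed_univ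
        (ae_of_all _ fun _ => mem_univ _) (hi _ hc) (hi _ (Real.continuous_exp.comp hc))
    have tm : Tame fun g => Real.exp (s₂ * (E - m g)) :=
      Tame.exp_lin (A := s₂ * (|E| + |m 0|)) (B := s₂) fun g => by
        rw [abs_mul, abs_of_nonneg hs₂, ← mul_add]
        refine mul_le_mul_of_nonneg_left ?_ hs₂
        linarith [abs_sub E (m g), hmsup g]
    refine (integral_mono (tm.integrable (by fun_prop)) hFi.integral_prod_left hjen).trans ?_
    simp only [Function.uncurry_apply_pair]
    rw [integral_integral_swap hFi]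
    refine (integral_mono hFi.integral_prod_right (integrable_const (Real.exp (2 * s₂ ^ 2)))
      fun x => ?_).trans_eq (by simp)
    simp only [Function.uncurry_apply_pair, hFdef]
    set v := √t • x with hv
    have tp : ∀ c : ℝ, Tame fun g => Real.exp (c * U (g + v)) := fun c =>
      Tame.exp_lin (A := |c| * (|U 0| + ‖v‖)) (B := |c|) fun g => by
        rw [abs_mul, ← mul_add]
        exact mul_le_mul_of_nonneg_left (by linarith [hsup (g + v), norm_add_le g v]) (abs_nonneg c)
    have ip : Integrable (fun g => Real.exp (s₂ * U (g + v))) (gam n) :=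
      (tp s₂).integrable (by fun_prop)
    have im : Integrable (fun g => Real.exp (-(s₂ * U (g + v)))) (gam n) := by
      simpa using (tp (-s₂)).integrable (by fun_prop)
    have hder : ∀ g, HasFDerivAt (fun g => s₂ * U (g + v)) (innerSL ℝ (s₂ • G (g + v))) g :=
      fun g => by
      refine ((((hd (g + v)).comp g ((hasFDerivAt_id g).add_const v)).const_mul s₂)).congr_fderiv ?_
      simp [map_smul]
    have hMP := exp_mul_exp_neg_le hder ((hG.comp (by fun_prop)).const_smul s₂) ip im
      (integrable_const (Real.exp (2 * s₂ ^ 2))) fun g => by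
        refine Real.exp_le_exp.2 ?_
        rw [norm_smul, mul_pow, Real.norm_eq_abs, sq_abs]
        have h1 : ‖G (g + v)‖ ^ 2 ≤ 1 := pow_le_one₀ (norm_nonneg _) (hl _)
        have h2 : Real.pi ^ 2 ≤ 16 := by nlinarith [Real.pi_le_four, Real.pi_pos]
        nlinarith [mul_le_mul h2 (mul_le_of_le_one_right (sq_nonneg s₂) h1) (by positivity)
          (by norm_num : (0 : ℝ) ≤ 16)]
    simp only [integral_const, probReal_univ, one_smul] at hMP
    refine le_trans ?_ hMP
    have hJ : Real.exp (s₂ * α x) ≤ ∫ g, Real.exp (s₂ * U (g + v)) ∂gam n := by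
      rw [hαdef, ← integral_const_mul]
      exact convexOn_exp.map_integral_le Real.continuous_exp.continuousOn isClosed_univ
        (ae_of_all _ fun _ => mem_univ _) ((iγ v).const_mul s₂) ip
    calc ∫ g, Real.exp (s₂ * (α x - U (g + v))) ∂gam n
        = Real.exp (s₂ * α x) * ∫ g, Real.exp (-(s₂ * U (g + v))) ∂gam n := by
          rw [← integral_const_mul]
          refine integral_congr_ae (ae_of_all _ fun g => ?_)
          beta_reduce
          rw [← Real.exp_add]; ring_nf
      _ ≤ _ := mul_le_mul_of_nonneg_right hJ (integral_nonneg fun g => (Real.exp_pos _).le)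
  -- assembly
  have hGi : Integrable (Function.uncurry fun g x => φ x * T (g + √t • x)) ((gam n).prod μ) := by
    refine integrable_gam_prod hμ (by simp only [Function.uncurry_def]; fun_prop) (A := 1) (c := 0)
      fun g x _ => ?_
    rw [abs_of_nonneg (mul_nonneg (hφ0 x) (hT0 _)), zero_mul, Real.exp_zero, one_mul]
    exact mul_le_one₀ (hφ1 x) (hT0 _) (hT1 _)
  have tm : Integrable (fun g => Real.exp (s₂ * (E - m g))) (gam n) :=
    (Tame.exp_lin (A := s₂ * (|E| + |m 0|)) (B := s₂) fun g => by
      rw [abs_mul, abs_of_nonneg hs₂, ← mul_add]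
      exact mul_le_mul_of_nonneg_left (by linarith [abs_sub E (m g), hmsup g]) hs₂).integrable
      (by fun_prop)
  calc ∫ x, φ x * ∫ g, T (g + √t • x) ∂gam n ∂μ
      = ∫ g, ∫ x, φ x * T (g + √t • x) ∂μ ∂gam n := by
        rw [integral_integral_swap hGi]
        simp only [integral_const_mul]
    _ ≤ _ := (integral_mono hGi.integral_prod_left
        ((integrable_const _).add (tm.const_mul (Φ * Real.exp (-s₂ * a)))) hinner)
    _ ≤ Real.exp (K + K * t * s₁ ^ 2 - s₁ * a)
        + Φ * Real.exp (-s₂ * a) * Real.exp (2 * s₂ ^ 2) := by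
        simp only [Pi.add_apply]
        rw [integral_add (integrable_const _) (tm.const_mul _), integral_const_mul, integral_const]
        simp only [probReal_univ, one_smul]
        gcongr
    _ = _ := by rw [mul_assoc Φ, ← Real.exp_add]; ring_nf

theorem integral_le_measureReal [IsProbabilityMeasure μ] {f : Space n → ℝ} (hf : Integrable f μ)
    {A : Set (Space n)} (hA : MeasurableSet A) (h : ∀ x, f x ≤ A.indicator (fun _ => (1 : ℝ)) x) :
    ∫ x, f x ∂μ ≤ μ.real A := by
  have := integral_mono hf ((integrable_const (1 : ℝ)).indicator hA) h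
  rwa [integral_indicator_const _ hA, smul_eq_mul, mul_one] at this

/-- Masses of a function with values in the unit interval. -/
theorem mass_bounds (hμ : Car μ R) {g : Space n → ℝ} (hgc : Continuous g) (h0 : ∀ x, 0 ≤ g x)
    (h1 : ∀ x, g x ≤ 1) {p : ℝ} (hsupp : μ.real {x | g x ≠ 0} ≤ p)
    (hone : p / 16 ≤ μ.real {x | g x = 1}) :
    p / 16 ≤ ∫ x, g x ^ 2 ∂μ ∧ ∫ x, g x ^ 2 ∂μ ≤ p ∧
      -p ≤ ∫ x, g x ^ 2 * Real.log (g x ^ 2) ∂μ := by
  have := hμ.prob
  have hi : ∀ u : Space n → ℝ, Continuous u → Integrable u μ :=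
    fun u hu => hμ.integrable (adm_continuous hu R)
  have hA : MeasurableSet {x | g x ≠ 0} := (measurableSet_eq_fun hgc.measurable measurable_const).compl
  refine ⟨hone.trans ?_, (integral_le_measureReal (hi _ (by fun_prop)) hA fun x => ?_).trans hsupp, ?_⟩
  · have hBm : MeasurableSet {x | g x = 1} := measurableSet_eq_fun hgc.measurable measurable_const
    rw [← integral_indicator_one hBm]
    refine integral_mono ((integrable_const (1 : ℝ)).indicator hBm) (hi _ (by fun_prop)) fun x => ?_
    by_cases hx : g x = 1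
    · rw [indicator_of_mem (show x ∈ {x | g x = 1} from hx)]; simp [hx]
    · rw [indicator_of_notMem (show x ∉ {x | g x = 1} from hx)]; exact sq_nonneg _
  · by_cases hx : g x = 0
    · rw [indicator_of_notMem (show x ∉ {x | g x ≠ 0} by simpa using hx)]; simp [hx]
    · rw [indicator_of_mem (show x ∈ {x | g x ≠ 0} from hx)]; exact pow_le_one₀ (h0 x) (h1 x)
  · have h := (integral_le_measureReal (f := fun x => -(g x ^ 2 * Real.log (g x ^ 2)))
      (hi _ (Real.continuous_mul_log.comp (hgc.pow 2))).neg hA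
      fun x => by
        by_cases hx : g x = 0
        · rw [indicator_of_notMem (show x ∉ {x | g x ≠ 0} by simpa using hx)]; simp [hx]
        · rw [indicator_of_mem (show x ∈ {x | g x ≠ 0} from hx)]
          have hpos : 0 < g x ^ 2 := by positivity
          have := mul_le_mul_of_nonneg_left (Real.one_sub_inv_le_log_of_pos hpos) hpos.le
          rw [mul_sub, mul_one, mul_inv_cancel₀ hpos.ne'] at this
          linarith).trans hsupp
    rw [integral_neg] at h
    linarith

/-- A lower bound for the mean from a lower bound by an affine function of a tilted mass. -/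
theorem mean_ge (hμ : Car μ R) {t : ℝ} (ht : 0 ≤ t) {U w : Space n → ℝ} (hUc : Continuous U)
    (tU : Tame U) (hw : Continuous w) {a c : ℝ} (ha : 0 ≤ a)
    (hlow : ∀ z, a * (1 - c * M μ w (t, √t • z)) ≤ U z) (hc : c * ∫ x, w x ∂μ ≤ 1 / 2) :
    a / 2 ≤ ∫ z, U z * Zf μ (t, √t • z) ∂gam n := by
  have tZ : Tame fun z => Zf μ (t, √t • z) := tame_Zf hμ t
  have cZ : Continuous fun z : Space n => Zf μ (t, √t • z) := (continuous_Zf hμ).comp (by fun_prop)
  have iW : Integrable (fun z => a * c * (M μ w (t, √t • z) * Zf μ (t, √t • z))) (gam n) :=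
    (obs_Zf_mul hμ (obs_M hμ (adm_continuous hw R)) t).const_mul _
  have i1 : Integrable (fun z => a * Zf μ (t, √t • z)
      - a * c * (M μ w (t, √t • z) * Zf μ (t, √t • z))) (gam n) :=
    ((tZ.integrable cZ).const_mul _).sub iW
  have h := integral_mono i1 ((tU.mul tZ).integrable (hUc.mul cZ)) fun z => by
    have := mul_le_mul_of_nonneg_right (hlow z) (Zf_pos hμ (t, √t • z)).le
    linarith
  have hW : ∫ z, M μ w (t, √t • z) * Zf μ (t, √t • z) ∂gam n = ∫ x, w x ∂μ :=
    Et_M hμ (adm_continuous hw R) ht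
  have hZ1 : ∫ z, Zf μ (t, √t • z) ∂gam n = 1 := by simpa [Et] using Et_const hμ 1 ht
  rw [integral_sub ((tZ.integrable cZ).const_mul _) iW, integral_const_mul, integral_const_mul,
    hW, hZ1, mul_one] at h
  nlinarith [mul_le_mul_of_nonneg_left hc ha]

/-- The logarithmic Sobolev inequality of the tilts, averaged with a cut-off. -/
theorem tilt_lsi_step (hs : IsSLC 0 μ) (hμ : Car μ R) {t : ℝ} (ht : 0 < t) {g : Space n → ℝ}
    (hg : ContDiff ℝ 2 g) {η b : ℝ} (hη : 0 < η) {T : Space n → ℝ} (hTc : Continuous T)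
    (hT0 : ∀ z, 0 ≤ T z) (hT1 : ∀ z, T z ≤ 1)
    (hb : ∀ z, b * (1 - T z) ≤ Real.log 4 - Real.log (M μ (fun x => g x ^ 2) (t, √t • z) + η)) :
    b * ((∫ x, g x ^ 2 ∂μ) - ∫ z, T z * Nf μ (fun x => g x ^ 2) (t, √t • z) ∂gam n)
      - Real.log 4 * ∫ x, g x ^ 2 ∂μ
      ≤ 2 / t * dir μ g - ∫ x, g x ^ 2 * Real.log (g x ^ 2) ∂μ := by
  have hgc := hg.continuous
  have hφ : Adm R fun x => g x ^ 2 := adm_continuous (hgc.pow 2) R
  have had : Adm R fun x => ‖fderiv ℝ g x‖ ^ 2 :=
    adm_continuous ((hg.continuous_fderiv (by norm_num)).norm.pow 2) R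
  have hlc : Adm R fun x => g x ^ 2 * Real.log (g x ^ 2) :=
    adm_continuous (Real.continuous_mul_log.comp (hgc.pow 2)) R
  have iS := obs_Zf_mul hμ (obs_M hμ hφ) t
  have iD := obs_Zf_mul hμ (obs_M hμ had) t
  have iF := obs_Zf_mul hμ (obs_M hμ hlc) t
  have eN : ∀ z, Nf μ (fun x => g x ^ 2) (t, √t • z)
      = M μ (fun x => g x ^ 2) (t, √t • z) * Zf μ (t, √t • z) :=
    fun z => (div_mul_cancel₀ _ (Zf_pos hμ _).ne').symm
  simp only [eN]
  have iTS : Integrable (fun z => T z *
      (M μ (fun x => g x ^ 2) (t, √t • z) * Zf μ (t, √t • z))) (gam n) :=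
    iS.bdd_mul hTc.aestronglyMeasurable (c := 1) (ae_of_all _ fun z => by
      rw [Real.norm_eq_abs, abs_of_nonneg (hT0 z)]; exact hT1 z)
  have hpt : ∀ z, b * (M μ (fun x => g x ^ 2) (t, √t • z) * Zf μ (t, √t • z)
        - T z * (M μ (fun x => g x ^ 2) (t, √t • z) * Zf μ (t, √t • z)))
        - Real.log 4 * (M μ (fun x => g x ^ 2) (t, √t • z) * Zf μ (t, √t • z))
      ≤ 2 / t * (M μ (fun x => ‖fderiv ℝ g x‖ ^ 2) (t, √t • z) * Zf μ (t, √t • z))
        - M μ (fun x => g x ^ 2 * Real.log (g x ^ 2)) (t, √t • z) * Zf μ (t, √t • z) := by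
    intro z
    have hlsi := (show IsSLC (0 + t) (tlt μ (t, √t • z)) from hs.tlt (t, √t • z)).lsi
      (by linarith) hg
    rw [zero_add, ent, dir] at hlsi
    simp only [← M_eq] at hlsi
    have hS0 : 0 ≤ M μ (fun x => g x ^ 2) (t, √t • z) := by
      rw [M_eq]; exact integral_nonneg fun x => sq_nonneg _
    have hS' : M μ (fun x => g x ^ 2) (t, √t • z) * Real.log (M μ (fun x => g x ^ 2) (t, √t • z))
        ≤ M μ (fun x => g x ^ 2) (t, √t • z)
          * Real.log (M μ (fun x => g x ^ 2) (t, √t • z) + η) := by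
      rcases hS0.eq_or_lt with h | h
      · rw [← h]; simp
      · exact mul_le_mul_of_nonneg_left (Real.log_le_log h (by linarith)) h.le
    have h3 := mul_le_mul_of_nonneg_left (hb z) hS0
    have h4 : b * (M μ (fun x => g x ^ 2) (t, √t • z)
          - T z * M μ (fun x => g x ^ 2) (t, √t • z))
          - Real.log 4 * M μ (fun x => g x ^ 2) (t, √t • z)
        ≤ 2 / t * M μ (fun x => ‖fderiv ℝ g x‖ ^ 2) (t, √t • z)
          - M μ (fun x => g x ^ 2 * Real.log (g x ^ 2)) (t, √t • z) := by linarith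
    have := mul_le_mul_of_nonneg_right h4 (Zf_pos hμ (t, √t • z)).le
    linarith
  have hint := integral_mono (((iS.sub iTS).const_mul b).sub (iS.const_mul (Real.log 4)))
    ((iD.const_mul (2 / t)).sub iF) hpt
  simp only [Pi.sub_apply] at hint
  rw [integral_sub ((iS.sub' iTS).const_mul b) (iS.const_mul _), integral_sub (iD.const_mul _) iF,
    integral_const_mul, integral_const_mul, integral_const_mul, integral_sub iS iTS] at hint
  have eS := Et_M hμ hφ ht.le
  have eD := Et_M hμ had ht.le
  have eF := Et_M hμ hlc ht.le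
  simp only [Et] at eS eD eF
  rw [eS, eD, eF] at hint
  exact hint

/-- The numerical bounds on the exponents. -/
theorem level_arith {K L a p S₀ : ℝ} (hK : 1 ≤ K) (hL : 131072 * K ≤ L) (ha2 : a ^ 2 = L / 128)
    (hpL : 2 * Real.exp (-L) = p) (hS₀ : p / 16 ≤ S₀) :
    Real.exp (K + K * (1 / (1536 * K)) * (768 * a) ^ 2 - 768 * a * a)
      + S₀ * Real.exp (2 * (a / 4) ^ 2 - a / 4 * a) ≤ S₀ / 4 := by
  have e1 : K + K * (1 / (1536 * K)) * (768 * a) ^ 2 - 768 * a * a = K - 3 * L := by
    have hKt : K * (1 / (1536 * K)) = 1 / 1536 := by field_simp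
    rw [hKt]
    linear_combination (-384 : ℝ) * ha2
  have e2 : 2 * (a / 4) ^ 2 - a / 4 * a = -(L / 1024) := by linear_combination (-(1 / 8) : ℝ) * ha2
  rw [e1, e2]
  have hp : 0 < p := by rw [← hpL]; positivity
  have b1 : Real.exp (K - 3 * L) ≤ p * p / 4 := by
    have : Real.exp (K - 3 * L) ≤ Real.exp (-L) * Real.exp (-L) := by
      rw [← Real.exp_add]; exact Real.exp_le_exp.2 (by linarith)
    exact this.trans_eq (by rw [← hpL]; ring)
  have b0 : Real.exp (-L) ≤ 1 / 131073 := by
    rw [Real.exp_neg, one_div]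
    exact inv_anti₀ (by norm_num) (by linarith [Real.add_one_le_exp L])
  have b2 : Real.exp (-(L / 1024)) ≤ 1 / 128 := by
    rw [Real.exp_neg, one_div]
    exact inv_anti₀ (by norm_num) (by linarith [Real.add_one_le_exp (L / 1024)])
  nlinarith [mul_le_mul_of_nonneg_left b2 (show 0 ≤ S₀ by linarith),
    mul_le_mul_of_nonneg_left (show p ≤ 2 / 131073 by linarith) hp.le]

/-- The lower bound of the Lipschitz function away from small tilted mass. -/
theorem level_pointwise {U W a p : ℝ} (hU : 0 < U) (hU2 : U ^ 2 = Real.log (4 / W)) (hW : 0 < W)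
    (hp : 0 < p) (ha : 0 ≤ a) (ha2 : a ^ 2 = Real.log (2 / p) / 128) :
    8 * a * (1 - (√p)⁻¹ * W) ≤ U := by
  have hsp : 0 < √p := Real.sqrt_pos.2 hp
  rcases le_or_gt (√p) W with h | h
  · have : 1 ≤ (√p)⁻¹ * W := by rw [← div_eq_inv_mul, one_le_div hsp]; exact h
    nlinarith
  · have h8 : (8 * a) ^ 2 ≤ U ^ 2 := by
      rw [hU2, mul_pow, ha2, Real.log_div (by norm_num) hW.ne', Real.log_div (by norm_num) hp.ne']
      have h3 := Real.log_le_log hW h.le
      rw [Real.log_sqrt hp.le] at h3
      have h4 := Real.log_le_log two_pos (show (2 : ℝ) ≤ 4 by norm_num)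
      have h5 : 0 ≤ Real.log 2 := Real.log_nonneg one_le_two
      linarith
    have h9 := (sq_le_sq₀ (by positivity) hU.le).1 h8
    have : 0 ≤ 8 * a * ((√p)⁻¹ * W) := by positivity
    linarith

/-- The cut-off is supported where the Lipschitz function is large. -/
theorem cutoff_le {U a : ℝ} (ha : 0 ≤ a) :
    a ^ 2 * (1 - Real.smoothTransition (a + 1 - U)) ≤ U ^ 2 := by
  rcases le_or_gt U a with h | h
  · rw [Real.smoothTransition.one_of_one_le (by linarith), sub_self, mul_zero]
    positivity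
  · calc a ^ 2 * (1 - Real.smoothTransition (a + 1 - U)) ≤ a ^ 2 * 1 := mul_le_mul_of_nonneg_left
          (by linarith [Real.smoothTransition.nonneg (a + 1 - U)]) (sq_nonneg a)
      _ ≤ U ^ 2 := by rw [mul_one]; exact pow_le_pow_left₀ ha h.le 2

/-- The large-level case. -/
theorem level_ent_large (hs : IsSLC 0 μ) (hμ : Car μ R) {K : ℝ} (hK : 1 ≤ K) (hconc : Conc μ K K)
    {g : Space n → ℝ} (hg : ContDiff ℝ 2 g) (h0 : ∀ x, 0 ≤ g x) (h1 : ∀ x, g x ≤ 1) {p : ℝ}
    (hp : 0 < p) (hsupp : μ.real {x | g x ≠ 0} ≤ p)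
    (hone : p / 16 ≤ μ.real {x | g x = 1}) (hL : 131072 * K ≤ Real.log (2 / p)) :
    p * Real.log (2 / p) ≤ 10000000 * K * dir μ g := by
  have := hμ.prob
  obtain ⟨hS₀, hS₀p, hF⟩ := mass_bounds hμ hg.continuous h0 h1 hsupp hone
  have hpL : 2 * Real.exp (-Real.log (2 / p)) = p := by
    rw [Real.exp_neg, Real.exp_log (by positivity)]; field_simp
  have hpsmall : p ≤ 1 / 65536 := by
    have : (Real.exp (Real.log (2 / p)))⁻¹ ≤ 1 / 131073 := by
      rw [one_div]
      exact inv_anti₀ (by norm_num) (by linarith [Real.add_one_le_exp (Real.log (2 / p))])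
    rw [← Real.exp_neg] at this
    linarith
  have ht : 0 < 1 / (1536 * K) := by positivity
  have hη : 0 < p ^ 2 := by positivity
  have hηp : p ^ 2 ≤ p := by nlinarith
  have hφ : Continuous fun x => g x ^ 2 := hg.continuous.pow 2
  have hw : Continuous fun x => g x ^ 2 + p ^ 2 := hφ.add continuous_const
  obtain ⟨U, Gr, hU2, hU, hGr, hd, hl⟩ := sqrt_log_lipschitz hs hμ hw
    (fun x => add_pos_of_nonneg_of_pos (sq_nonneg (g x)) hη)
    (fun x => by linarith [pow_le_one₀ (n := 2) (h0 x) (h1 x)]) ht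
  have hW : ∀ q, M μ (fun x => g x ^ 2 + p ^ 2) q = M μ (fun x => g x ^ 2) q + p ^ 2 := fun q => by
    rw [M_add hμ (adm_continuous hφ R) (adm_continuous continuous_const R), M_const hμ]
  have hS0 : ∀ q, 0 ≤ M μ (fun x => g x ^ 2) q := fun q => by
    rw [M_eq]; exact integral_nonneg fun x => sq_nonneg _
  have tU : Tame U := Tame.of_lin (A := |U 0|) (B := 1) fun z => by
    have := abs_sub_le_of_grad hd hl z 0
    rw [sub_zero] at this
    linarith [abs_sub_abs_le_abs_sub (U z) (U 0)]
  obtain ⟨a, ha0, ha2⟩ : ∃ a : ℝ, 1 ≤ a ∧ a ^ 2 = Real.log (2 / p) / 128 :=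
    ⟨√(Real.log (2 / p) / 128), by
      rw [← Real.sqrt_one]; exact Real.sqrt_le_sqrt (by linarith), Real.sq_sqrt (by linarith)⟩
  have hE : 4 * a ≤ ∫ z, U z * Zf μ (1 / (1536 * K), √(1 / (1536 * K)) • z) ∂gam n := by
    have hc : (√p)⁻¹ * ∫ x, (g x ^ 2 + p ^ 2) ∂μ ≤ 1 / 2 := by
      rw [integral_add (hμ.integrable (adm_continuous hφ R)) (integrable_const _), integral_const]
      simp only [probReal_univ, one_smul]
      rw [inv_mul_le_iff₀ (Real.sqrt_pos.2 hp)]
      have hsp4 : √p ≤ 1 / 4 := by rw [Real.sqrt_le_iff]; constructor <;> linarith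
      nlinarith [Real.mul_self_sqrt hp.le, Real.sqrt_nonneg p]
    have h := mean_ge hμ ht.le hU.continuous tU hw (a := 8 * a) (by linarith)
      (fun z => level_pointwise (hU2 z).1 (hU2 z).2 (by rw [hW]; linarith [hS0 (1 / (1536 * K), √(1 / (1536 * K)) • z)])
        hp (by linarith) ha2) hc
    linarith
  have hlow := low_level_le hμ hconc ht hU hGr hd hl hφ (fun x => sq_nonneg (g x))
    (fun x => pow_le_one₀ (h0 x) (h1 x)) (s₁ := 768 * a) (s₂ := a / 4) ha0 (by linarith)
    (by linarith) hE
  have hlow' := hlow.trans (level_arith hK hL ha2 hpL hS₀)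
  have hstep := tilt_lsi_step hs hμ ht hg hη (b := a ^ 2)
    (T := fun z => Real.smoothTransition (a + 1 - U z))
    (Real.smoothTransition.continuous.comp (continuous_const.sub hU.continuous))
    (fun z => Real.smoothTransition.nonneg _) (fun z => Real.smoothTransition.le_one _) fun z => by
      rw [← Real.log_div (by norm_num) (add_pos_of_nonneg_of_pos (hS0 _) hη).ne', ← hW,
        ← (hU2 z).2]
      exact cutoff_le (by linarith)
  have hl4 : Real.log 4 ≤ 2 := by
    rw [show (4 : ℝ) = 2 * 2 by norm_num, Real.log_mul two_ne_zero two_ne_zero]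
    linarith [Real.log_le_sub_one_of_pos two_pos]
  have h34 := mul_le_mul_of_nonneg_left
    (show 3 * p / 64 ≤ (∫ x, g x ^ 2 ∂μ) - ∫ z, Real.smoothTransition (a + 1 - U z) *
      Nf μ (fun x => g x ^ 2) (1 / (1536 * K), √(1 / (1536 * K)) • z) ∂gam n by linarith)
    (sq_nonneg a)
  have hlog : Real.log 4 * ∫ x, g x ^ 2 ∂μ ≤ 2 * p :=
    mul_le_mul hl4 hS₀p (by linarith) two_pos.le
  rw [ha2] at h34 hstep
  have ht2 : 2 / (1 / (1536 * K)) = 3072 * K := by field_simp; ring
  rw [ht2] at hstep
  have hpL' := mul_le_mul_of_nonneg_left (show (131072 : ℝ) ≤ Real.log (2 / p) by linarith) hp.le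
  nlinarith [mul_nonneg (show 0 ≤ K by linarith) (dir_nonneg (μ := μ) g)]

/-- The small-level case. -/
theorem level_ent_small (hμ : Car μ R) {P : ℝ} (hP : PIle μ P)
    {g : Space n → ℝ} (hg : ContDiff ℝ 2 g) {p : ℝ}
    (hp : 0 < p) (hp2 : p ≤ 1 / 2) (hsupp : μ.real {x | g x ≠ 0} ≤ p)
    (hone : p / 16 ≤ μ.real {x | g x = 1}) : p ≤ 32 * (P * dir μ g) := by
  have := hμ.prob
  have hgc := hg.continuous
  have hi : ∀ u : Space n → ℝ, Continuous u → Integrable u μ :=
    fun u hu => hμ.integrable (adm_continuous hu R)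
  have hA : MeasurableSet {x | g x ≠ 0} := (measurableSet_eq_fun hgc.measurable measurable_const).compl
  set G0 := ∫ x, g x ∂μ with hG0
  set S0 := ∫ x, g x ^ 2 ∂μ with hS0
  have hS1 : p / 16 ≤ S0 := by
    refine hone.trans ?_
    have hBm : MeasurableSet {x | g x = 1} := measurableSet_eq_fun hgc.measurable measurable_const
    rw [← integral_indicator_one hBm]
    refine integral_mono ((integrable_const (1 : ℝ)).indicator hBm) (hi _ (by fun_prop)) fun x => ?_
    by_cases hx : g x = 1
    · rw [indicator_of_mem (show x ∈ {x | g x = 1} from hx)]; simp [hx]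
    · rw [indicator_of_notMem (show x ∉ {x | g x = 1} from hx)]; exact sq_nonneg _
  have hS00 : 0 < S0 := by linarith
  -- the optimal multiple of the indicator
  set c := G0 / S0 with hc
  have hG : G0 ^ 2 ≤ p * S0 := by
    have h : ∫ x, (2 * c * g x - c ^ 2 * g x ^ 2) ∂μ ≤ p := by
      refine (integral_le_measureReal (hi _ (by fun_prop)) hA fun x => ?_).trans hsupp
      by_cases hx : g x = 0
      · rw [indicator_of_notMem (show x ∉ {x | g x ≠ 0} by simpa using hx)]; simp [hx]
      · rw [indicator_of_mem (show x ∈ {x | g x ≠ 0} from hx)]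
        nlinarith [sq_nonneg (c * g x - 1)]
    rw [integral_sub (hi _ (by fun_prop)) (hi _ (by fun_prop)), integral_const_mul,
      integral_const_mul, ← hG0, ← hS0] at h
    have : 2 * c * G0 - c ^ 2 * S0 = G0 ^ 2 / S0 := by rw [hc]; field_simp; ring
    rw [this, div_le_iff₀ hS00] at h
    exact h
  have hv : var μ g = S0 - G0 ^ 2 := by
    have e : (fun x => (g x - G0) ^ 2) = fun x => g x ^ 2 - (2 * G0 * g x - G0 ^ 2) := by
      funext x; ring
    rw [var, ← hG0, e, integral_sub (hi _ (by fun_prop)) (hi _ (by fun_prop)),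
      integral_sub (hi _ (by fun_prop)) (integrable_const _), integral_const_mul, integral_const,
      ← hG0, ← hS0]
    simp only [probReal_univ, one_smul]
    ring
  have := hP g hg
  rw [hv] at this
  nlinarith [mul_le_mul_of_nonneg_right hp2 hS00.le]

/-- The entropic level inequality. -/
theorem levelEntOfConc : LevelEntOfConc := by
  refine ⟨10000000, by norm_num, fun n μ R K P hs hμ hK hP hconc hPI g p hg h0 h1 hp hp2 hsupp hone => ?_⟩
  have := hμ.prob
  set L := Real.log (2 / p) with hLdef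
  have hd : 0 ≤ dir μ g := dir_nonneg g
  rcases le_or_gt L (131072 * K) with hL | hL
  · have h := level_ent_small hμ hPI hg hp hp2 hsupp hone
    have h' := mul_le_mul hL h hp.le (by linarith)
    have : 0 ≤ K * (P * dir μ g) := by positivity
    nlinarith
  · refine (level_ent_large hs hμ hK hconc hg h0 h1 hp hsupp hone hL.le).trans ?_
    have : 0 ≤ K * dir μ g := by positivity
    nlinarith

end Vale.Agent.P245
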