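import Vale.Agent.P245.Push.Pins
import Vale.Agent.P245.Push.LevelEnt
import Mathlib.Probability.Moments.MGFAnalytic

/-!
Exponential moments: the squared norm of a subgaussian vector, and Herbst's argument from the
logarithmic Sobolev inequality, also for functions whose gradient grows linearly.
-/

noncomputable section

open MeasureTheory Set Filter Topology ProbabilityTheory
open scoped ENNReal

namespace Vale.Agent.P245

variable {n : ℕ} {μ : Measure (Space n)} {R : ℝ}

/-- The exponential moment of the squared norm. -/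
theorem expSqBound : ExpSqBound := by
  intro n μ R u hμ hS hu0 hu
  have := hμ.prob
  set F : Space n → Space n → ℝ := fun g x => Real.exp (inner ℝ (√(2 * u) • x) g) with hF
  have hFc : Continuous (Function.uncurry F) := by
    simp only [hF, Function.uncurry_def]; fun_prop
  have hFi : Integrable (Function.uncurry F) ((gam n).prod μ) := by
    refine integrable_gam_prod hμ hFc (A := 1) (c := √(2 * u) * R) fun g x hx => ?_
    rw [hF, abs_of_pos (Real.exp_pos _), one_mul]
    refine Real.exp_le_exp.2 ((real_inner_le_norm _ _).trans ?_)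
    rw [norm_smul, Real.norm_eq_abs, abs_of_nonneg (Real.sqrt_nonneg _)]
    exact mul_le_mul_of_nonneg_right (mul_le_mul_of_nonneg_left hx (Real.sqrt_nonneg _))
      (norm_nonneg g)
  have h2u : √(2 * u) ^ 2 = 2 * u := Real.sq_sqrt (by linarith)
  calc ∫ x, Real.exp (u * ‖x‖ ^ 2) ∂μ = ∫ x, ∫ g, F g x ∂gam n ∂μ := by
        refine integral_congr_ae (ae_of_all _ fun x => ?_)
        simp only [hF]
        rw [gam_exp_inner, norm_smul, mul_pow, Real.norm_eq_abs, sq_abs, h2u]
        ring_nf
    _ = ∫ g, ∫ x, F g x ∂μ ∂gam n := (integral_integral_swap hFi).symm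
    _ ≤ ∫ g, Real.exp (2 * u * ‖g‖ ^ 2) ∂gam n := by
        refine integral_mono hFi.integral_prod_left (gam_exp_sq (by linarith)).1 fun g => ?_
        simp only [hF, real_inner_smul_left]
        have e : ∀ x : Space n, √(2 * u) * inner ℝ x g = inner ℝ (√(2 * u) • g) x := fun x => by
          rw [real_inner_smul_left, real_inner_comm x g]
        simp only [e]
        refine (hS.mgf hμ _).trans_eq ?_
        rw [norm_smul, mul_pow, Real.norm_eq_abs, sq_abs, h2u]
    _ ≤ Real.exp (4 * u * n) := by
        refine (gam_exp_sq_le (by linarith) (by linarith)).trans_eq ?_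
        ring_nf

/-- The logarithmic Sobolev inequality in exponential form. -/
theorem LSIle.exp_form {K : ℝ} (hL : LSIle μ K) {φ : Space n → ℝ} (hφ : ContDiff ℝ 2 φ) :
    ent μ (fun x => Real.exp (φ x))
      ≤ K / 4 * ∫ x, ‖fderiv ℝ φ x‖ ^ 2 * Real.exp (φ x) ∂μ := by
  have hf : ContDiff ℝ 2 fun x => Real.exp (φ x / 2) := (hφ.div_const 2).exp
  have e1 : (fun x => Real.exp (φ x / 2) ^ 2) = fun x => Real.exp (φ x) := by
    funext x; rw [sq, ← Real.exp_add, add_halves]
  have h := hL _ hf
  rw [e1] at h
  refine h.trans_eq ?_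
  have e2 : ∀ x, ‖fderiv ℝ (fun x => Real.exp (φ x / 2)) x‖ ^ 2
      = 1 / 4 * (‖fderiv ℝ φ x‖ ^ 2 * Real.exp (φ x)) := fun x => by
    have hd := (((hφ.differentiable two_ne_zero x).hasFDerivAt.mul_const (2 : ℝ)⁻¹)).exp
    simp only [← div_eq_mul_inv] at hd
    rw [hd.fderiv, norm_smul, norm_smul, Real.norm_eq_abs, Real.norm_eq_abs, Real.abs_exp,
      mul_pow, mul_pow, sq_abs, ← congrFun e1 x]
    ring
  simp only [dir, e2, integral_const_mul]
  ring

/-- The variational bound for the entropy of an exponential. -/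
theorem ent_exp_variational (hμ : Car μ R) {φ G : Space n → ℝ} (hφ : Continuous φ)
    (hG : Continuous G) : ∫ x, G x * Real.exp (φ x) ∂μ
      ≤ ent μ (fun x => Real.exp (φ x))
        + (∫ x, Real.exp (φ x) ∂μ) * Real.log (∫ x, Real.exp (G x) ∂μ) := by
  have := hμ.prob
  have hi : ∀ v : Space n → ℝ, Continuous v → Integrable v μ :=
    fun v hv => hμ.integrable (adm_continuous hv R)
  set Z := ∫ x, Real.exp (φ x) ∂μ with hZ
  set A := ∫ x, Real.exp (G x) ∂μ with hA
  have hZ0 : 0 < Z := integral_exp_pos (hi _ (by fun_prop))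
  have hA0 : 0 < A := integral_exp_pos (hi _ (by fun_prop))
  have hpt : ∀ x, G x * Real.exp (φ x) - φ x * Real.exp (φ x) + (Real.log Z - Real.log A + 1)
      * Real.exp (φ x) ≤ Z / A * Real.exp (G x) := fun x => by
    have h := mul_le_mul_of_nonneg_left
      (Real.add_one_le_exp (G x - φ x + (Real.log Z - Real.log A))) (Real.exp_pos (φ x)).le
    rw [Real.exp_add, Real.exp_sub, Real.exp_sub, Real.exp_log hZ0, Real.exp_log hA0] at h
    have e : Real.exp (φ x) * (Real.exp (G x) / Real.exp (φ x) * (Z / A))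
        = Z / A * Real.exp (G x) := by field_simp
    linarith
  have h := integral_mono (((hi _ (by fun_prop)).sub (hi _ (by fun_prop))).add (hi _ (by fun_prop)))
    (hi _ (by fun_prop)) hpt
  simp only [Pi.add_apply, Pi.sub_apply] at h
  rw [integral_add (hi _ (by fun_prop)) (hi _ (by fun_prop)),
    integral_sub (hi _ (by fun_prop)) (hi _ (by fun_prop)), integral_const_mul, integral_const_mul,
    ← hZ, ← hA, div_mul_cancel₀ _ hA0.ne'] at h
  simp only [ent, Real.log_exp, ← hZ]
  simp only [mul_comm (Real.exp _) (φ _)]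
  linarith

/-- Herbst's argument. -/
theorem herbst_step (hμ : Car μ R) {f : Space n → ℝ} (hf : Continuous f) {a : ℝ}
    (h : ∀ s : ℝ, 0 < s → s ≤ 1 →
      ent μ (fun x => Real.exp (s * f x)) ≤ a * s ^ 2 * ∫ x, Real.exp (s * f x) ∂μ) :
    ∫ x, Real.exp (f x - ∫ y, f y ∂μ) ∂μ ≤ Real.exp a := by
  have := hμ.prob
  have hi : ∀ v : Space n → ℝ, Continuous v → Integrable v μ :=
    fun v hv => hμ.integrable (adm_continuous hv R)
  set Z : ℝ → ℝ := fun s => ∫ x, Real.exp (s * f x) ∂μ with hZ
  have hset : integrableExpSet f μ = univ := eq_univ_of_forall fun s => hi _ (by fun_prop)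
  have hZd : ∀ s, HasDerivAt Z (∫ x, f x * Real.exp (s * f x) ∂μ) s := fun s =>
    hasDerivAt_mgf (by rw [hset, interior_univ]; trivial)
  have hZ0 : ∀ s, 0 < Z s := fun s => integral_exp_pos (hi _ (by fun_prop))
  have hH0 : HasDerivAt (fun s => Real.log (Z s)) (∫ y, f y ∂μ) 0 := by
    refine ((hZd 0).log (hZ0 0).ne').congr_deriv ?_
    simp [hZ]
  have hψd : ∀ s, 0 < s → HasDerivAt (fun s => Real.log (Z s) / s - a * s)
      (((∫ x, f x * Real.exp (s * f x) ∂μ) / Z s * s - Real.log (Z s) * 1) / s ^ 2 - a * 1) s :=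
    fun s hs => (((hZd s).log (hZ0 s).ne').div (hasDerivAt_id' s) hs.ne').sub
      ((hasDerivAt_id' s).const_mul a)
  have hanti : AntitoneOn (fun s => Real.log (Z s) / s - a * s) (Ioc 0 1) := by
    refine antitoneOn_of_hasDerivWithinAt_nonpos (convex_Ioc 0 1)
      (fun s hs => (hψd s hs.1).continuousAt.continuousWithinAt)
      (fun s hs => (hψd s ?_).hasDerivWithinAt) fun s hs => ?_
    · rw [interior_Ioc] at hs; exact hs.1
    rw [interior_Ioc] at hs
    have h1 := h s hs.1 hs.2.le
    have e : ∫ x, Real.exp (s * f x) * Real.log (Real.exp (s * f x)) ∂μ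
        = s * ∫ x, f x * Real.exp (s * f x) ∂μ := by
      rw [← integral_const_mul]
      simp only [Real.log_exp]
      exact integral_congr_ae (ae_of_all _ fun x => by ring)
    rw [ent, e] at h1
    have hs2 : 0 < s ^ 2 := pow_pos hs.1 2
    rw [mul_one, mul_one, sub_nonpos, div_le_iff₀ hs2, div_mul_eq_mul_div, sub_le_iff_le_add,
      div_le_iff₀ (hZ0 s)]
    linarith
  have ht : Tendsto (fun s => Real.log (Z s) / s - a * s) (𝓝[>] 0) (𝓝 (∫ y, f y ∂μ)) := by
    have h1 : Tendsto (fun s => Real.log (Z s) / s) (𝓝[>] 0) (𝓝 (∫ y, f y ∂μ)) := by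
      refine Tendsto.congr (fun s => ?_) (hH0.tendsto_slope_zero.mono_left
        (nhdsWithin_mono _ fun s (hs : 0 < s) => ne_of_gt hs))
      simp [hZ, div_eq_inv_mul]
    have h2 : Tendsto (fun s : ℝ => a * s) (𝓝[>] 0) (𝓝 (a * 0)) :=
      ((continuous_const_mul a).tendsto 0).mono_left nhdsWithin_le_nhds
    simpa using h1.sub h2
  have hle : Real.log (Z 1) / 1 - a * 1 ≤ ∫ y, f y ∂μ := by
    refine ge_of_tendsto ht ?_
    filter_upwards [Ioc_mem_nhdsGT zero_lt_one] with s hs
    exact hanti hs ⟨one_pos, le_rfl⟩ hs.2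
  rw [div_one, mul_one] at hle
  have e : ∫ x, Real.exp (f x - ∫ y, f y ∂μ) ∂μ = Z 1 * Real.exp (-∫ y, f y ∂μ) := by
    rw [hZ, ← integral_mul_const]
    simp [← Real.exp_add, sub_eq_add_neg]
  rw [e, ← Real.exp_log (hZ0 1), ← Real.exp_add]
  exact Real.exp_le_exp.2 (by linarith)

/-- Herbst's bound. -/
theorem herbstBound : HerbstBound := by
  intro n μ R K l hμ hK hL f hf hl s
  have := hμ.prob
  have hi : ∀ v : Space n → ℝ, Continuous v → Integrable v μ :=
    fun v hv => hμ.integrable (adm_continuous hv R)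
  have h := herbst_step hμ (f := fun x => s * f x) (hf.continuous.const_mul s)
    (a := K * l ^ 2 * s ^ 2 / 4) fun r _ _ => by
      refine (hL.exp_form (φ := fun x => r * (s * f x)) ((contDiff_const (c := r)).mul ((contDiff_const (c := s)).mul hf))).trans ?_
      rw [← integral_const_mul, ← integral_const_mul]
      refine integral_mono_ae ?_ (hi _ (by have := hf.continuous; fun_prop)) ?_
      · refine hi _ ?_
        have h1 := ((contDiff_const (c := r)).mul ((contDiff_const (c := s)).mul hf)).continuous_fderiv (by norm_num)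
        have := hf.continuous
        fun_prop
      · filter_upwards [hμ.bd] with x hx
        have hd := ((hf.differentiable two_ne_zero x).hasFDerivAt.const_mul s).const_mul r
        rw [hd.fderiv, norm_smul, norm_smul, Real.norm_eq_abs, Real.norm_eq_abs, mul_pow, mul_pow,
          sq_abs, sq_abs]
        have h2 := pow_le_pow_left₀ (norm_nonneg _) (hl x hx) 2
        have h3 := mul_le_mul_of_nonneg_left h2
          (show 0 ≤ K / 4 * r ^ 2 * s ^ 2 * Real.exp (r * (s * f x)) by positivity)
        linarith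
  rw [integral_const_mul] at h
  simpa [mul_sub] using h

/-- Herbst's bound under linear growth of the gradient. -/
theorem herbstGrowth : HerbstGrowth := by
  refine ⟨4, by norm_num, fun n μ R K a b hμ hS hK hL ha hb hKb f hf hg => ?_⟩
  have := hμ.prob
  have hi : ∀ v : Space n → ℝ, Continuous v → Integrable v μ :=
    fun v hv => hμ.integrable (adm_continuous hv R)
  have hfc := hf.continuous
  refine (herbst_step hμ hfc (a := 2 * K * (a + b * n)) fun s hs0 hs1 => ?_).trans
    (Real.exp_le_exp.2 ?_)
  · set Z := ∫ x, Real.exp (s * f x) ∂μ with hZ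
    set Q := ∫ x, ‖x‖ ^ 2 * Real.exp (s * f x) ∂μ with hQ
    have h1 : ent μ (fun x => Real.exp (s * f x)) ≤ K / 4 * (s ^ 2 * (a * Z + b * Q)) := by
      refine (hL.exp_form (φ := fun x => s * f x) ((contDiff_const (c := s)).mul hf)).trans ?_
      refine mul_le_mul_of_nonneg_left ?_ (by linarith)
      rw [hZ, hQ, ← integral_const_mul, ← integral_const_mul,
        ← integral_add (hi _ (by fun_prop)) (hi _ (by fun_prop)), ← integral_const_mul]
      refine integral_mono_ae ?_ (hi _ (by fun_prop)) ?_
      · refine hi _ ?_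
        have h1 := ((contDiff_const (c := s)).mul hf).continuous_fderiv (by norm_num)
        fun_prop
      · filter_upwards [hμ.bd] with x hx
        have hd := (hf.differentiable two_ne_zero x).hasFDerivAt.const_mul s
        rw [hd.fderiv, norm_smul, Real.norm_eq_abs, mul_pow, sq_abs]
        have h3 := mul_le_mul_of_nonneg_left (hg x hx)
          (show 0 ≤ s ^ 2 * Real.exp (s * f x) by positivity)
        linarith
    have h2 : 1 / 8 * Q ≤ ent μ (fun x => Real.exp (s * f x)) + Z * (n / 2) := by
      have hv := ent_exp_variational hμ (φ := fun x => s * f x) (G := fun x => 1 / 8 * ‖x‖ ^ 2)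
        (by fun_prop) (by fun_prop)
      simp only [mul_assoc, integral_const_mul] at hv
      refine hv.trans (add_le_add le_rfl (mul_le_mul_of_nonneg_left ?_
        (integral_nonneg fun x => (Real.exp_pos _).le)))
      refine (Real.log_le_iff_le_exp (integral_exp_pos (hi _ (by fun_prop)))).2 ?_
      refine (expSqBound n μ R (1 / 8) hμ hS (by norm_num) le_rfl).trans_eq ?_
      ring_nf
    have hQ0 : 0 ≤ Q := integral_nonneg fun x => by positivity
    have hZ0 : 0 ≤ Z := integral_nonneg fun x => (Real.exp_pos _).le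
    have hKbs : K * b * s ^ 2 ≤ 1 / 4 := by
      have := mul_le_mul_of_nonneg_left (pow_le_one₀ (n := 2) hs0.le hs1) (mul_nonneg hK hb)
      linarith
    have h3 := mul_le_mul_of_nonneg_left h2 (show 0 ≤ 2 * (K * b * s ^ 2) by positivity)
    rcases le_or_gt (ent μ fun x => Real.exp (s * f x)) 0 with he | he
    · exact he.trans (by positivity)
    · have h4 := mul_le_mul_of_nonneg_right hKbs he.le
      have : 0 ≤ K * a * s ^ 2 * Z := by positivity
      have : 0 ≤ K * b * s ^ 2 * Z * n := by positivity
      nlinarith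
  · have : 0 ≤ K * (a + b * n) := by positivity
    linarith

end Vale.Agent.P245
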