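import Vale.Agent.P245.Pins
import Vale.Agent.P245.Levels
import Vale.Agent.P245.Tensor

/-!
Statements shared between the blocks of the improvement below the exponent one third:
concentration from a Renyi divergence to a Gaussian reference with the covariance of the measure,
and the logarithmic Sobolev inequality from concentration.
-/

noncomputable section

open MeasureTheory Set Filter Topology Matrix
open scoped ENNReal

namespace Vale.Agent.P245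

variable {n : ℕ}

/-- The quadratic form of the covariance. -/
def qA (μ : Measure (Space n)) (g : Space n) : ℝ := g.ofLp ⬝ᵥ covM μ *ᵥ g.ofLp

/-- The covariance of the tilt, applied to a vector. -/
def covV (μ : Measure (Space n)) (p : Par n) (v : Space n) : Space n :=
  WithLp.toLp 2 (covM (tlt μ p) *ᵥ v.ofLp)

/-- The Renyi divergence of order two of the channel law at time `t`, relative to the centred
Gaussian law of precision `1 - t * covM μ`, is at most `r`. -/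
def RenyiLe (μ : Measure (Space n)) (t r : ℝ) : Prop :=
  (∫ g, Zf μ (t, √t • g) ^ 2 * Real.exp (-(t / 2) * qA μ g) ∂gam n) *
    (∫ g, Real.exp (t / 2 * qA μ g) ∂gam n) ≤ Real.exp r

/-- Concentration of Lipschitz functions: exponential moments at most `exp (r + v s ^ 2)`. -/
def Conc (μ : Measure (Space n)) (r v : ℝ) : Prop :=
  ∀ f : Space n → ℝ, ContDiff ℝ 2 f → (∀ x, ‖fderiv ℝ f x‖ ≤ 1) → ∀ s : ℝ,
    ∫ x, Real.exp (s * (f x - ∫ y, f y ∂μ)) ∂μ ≤ Real.exp (r + v * s ^ 2)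

/-- The logarithmic Sobolev inequality with constant `K`. -/
def LSIle (μ : Measure (Space n)) (K : ℝ) : Prop :=
  ∀ f : Space n → ℝ, ContDiff ℝ 2 f → ent μ (fun x => f x ^ 2) ≤ K * dir μ f

/-- The Poincare inequality with constant `P`. -/
def PIle (μ : Measure (Space n)) (P : ℝ) : Prop :=
  ∀ f : Space n → ℝ, ContDiff ℝ 2 f → var μ f ≤ P * dir μ f

/-- The entropic inequality for functions with values in the unit interval that equal one on a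
sixteenth of their support. -/
def LevelEnt (μ : Measure (Space n)) (K : ℝ) : Prop :=
  ∀ (g : Space n → ℝ) (p : ℝ), ContDiff ℝ 2 g → (∀ x, 0 ≤ g x) → (∀ x, g x ≤ 1) → 0 < p →
    p ≤ 1 / 2 → μ.real {x | g x ≠ 0} ≤ p → p / 16 ≤ μ.real {x | g x = 1} →
      p * Real.log (2 / p) ≤ K * dir μ g

/-- A Gaussian integral with a quadratic weight, by diagonalisation. -/
def GaussQuad : Prop :=
  ∀ (n : ℕ) (U : Mat n) (c : Fin n → ℝ), Uᵀ * U = 1 → U * Uᵀ = 1 → (∀ i, c i < 1) →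
    ∀ u : Space n → ℝ,
      ∫ g, u g * Real.exp (1 / 2 * (g.ofLp ⬝ᵥ (U * diagonal c * Uᵀ) *ᵥ g.ofLp)) ∂gam n
        = (∏ i, √(1 - c i))⁻¹ *
          ∫ g, u (WithLp.toLp 2 ((U * diagonal fun i => (√(1 - c i))⁻¹) *ᵥ g.ofLp)) ∂gam n

/-- Herbst's argument. -/
def HerbstBound : Prop :=
  ∀ (n : ℕ) (μ : Measure (Space n)) (R K l : ℝ), Car μ R → 0 ≤ K → LSIle μ K →
    ∀ f : Space n → ℝ, ContDiff ℝ 2 f → (∀ x, ‖x‖ ≤ R → ‖fderiv ℝ f x‖ ≤ l) →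
      ∀ s : ℝ, ∫ x, Real.exp (s * (f x - ∫ y, f y ∂μ)) ∂μ ≤ Real.exp (K * l ^ 2 * s ^ 2 / 4)

/-- Herbst's argument for functions whose gradient grows linearly. -/
def HerbstGrowth : Prop :=
  ∃ C : ℝ, 1 ≤ C ∧ ∀ (n : ℕ) (μ : Measure (Space n)) (R K a b : ℝ), Car μ R → Sub1 μ → 0 ≤ K →
    LSIle μ K → 0 ≤ a → 0 ≤ b → C * K * b ≤ 1 →
      ∀ f : Space n → ℝ, ContDiff ℝ 2 f →
        (∀ x, ‖x‖ ≤ R → ‖fderiv ℝ f x‖ ^ 2 ≤ a + b * ‖x‖ ^ 2) →
          ∫ x, Real.exp (f x - ∫ y, f y ∂μ) ∂μ ≤ Real.exp (C * K * (a + b * n))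

/-- The exponential moment of the squared norm. -/
def ExpSqBound : Prop :=
  ∀ (n : ℕ) (μ : Measure (Space n)) (R u : ℝ), Car μ R → Sub1 μ → 0 ≤ u → u ≤ 1 / 8 →
    ∫ x, Real.exp (u * ‖x‖ ^ 2) ∂μ ≤ Real.exp (4 * u * n)

/-- Concentration from the divergence bound. -/
def ConcOfRenyi : Prop :=
  ∃ C : ℝ, 1 ≤ C ∧ ∀ (n : ℕ) (μ : Measure (Space n)) (R : ℝ), IsSLC 0 μ → Sub1 μ → Car μ R →
    ∀ t r : ℝ, 0 < t → t ≤ 1 / 4 → RenyiLe μ t r → Conc μ r (C / t)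

/-- The entropic level inequality from concentration and a Poincare inequality. -/
def LevelEntOfConc : Prop :=
  ∃ C : ℝ, 1 ≤ C ∧ ∀ (n : ℕ) (μ : Measure (Space n)) (R K P : ℝ), IsSLC 0 μ → Car μ R →
    1 ≤ K → 1 ≤ P → Conc μ K K → PIle μ P → LevelEnt μ (C * K * P)

/-- The logarithmic Sobolev inequality from the entropic level inequality. -/
def EntOfLevelEnt : Prop :=
  ∃ C : ℝ, 1 ≤ C ∧ ∀ (n : ℕ) (μ : Measure (Space n)) (R K : ℝ), Car μ R → 0 ≤ K → LevelEnt μ K →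
    LSIle μ (C * K)

/-- The correlation of a measure with a kernel, bounded along the channel. -/
def CorrBound : Prop :=
  ∀ (n : ℕ) (μ : Measure (Space n)) (R : ℝ), IsSLC 0 μ → Car μ R → (∫ x, x ∂μ) = 0 →
    ∀ p : Space n → Space n → ℝ, Continuous (fun z : Space n × Space n => p z.1 z.2) →
      (∀ y x, 0 < p y x) → (∀ y, ∫ x, p y x ∂μ = 1) →
      ∀ (L : Space n →L[ℝ] Space n) (ε B : ℝ), 0 < ε →
        (∀ S : ℝ, 0 < S → ∫ s in (0 : ℝ)..S,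
          Et μ s (fun q => ∫ x, M μ (fun y => p y x) q * ‖covV μ q (L x)‖ ^ 2 ∂μ) ≤ B) →
        ∫ y, ∫ x, inner ℝ (L x) y * p y x ∂μ ∂μ
          ≤ ε * ∫ y, ∫ x, p y x * Real.log (p y x) ∂μ ∂μ + B / (2 * ε)

/-- The accumulated squared covariance along the channel. -/
def CovDrift : Prop :=
  ∀ (n : ℕ) (μ : Measure (Space n)) (R : ℝ), Car μ R → (∫ x, x ∂μ) = 0 →
    ∀ (L : Space n →L[ℝ] Space n) (S : ℝ), 0 ≤ S →
      ∫ s in (0 : ℝ)..S, Et μ s (fun q => ∫ x, ‖covV μ q (L x)‖ ^ 2 ∂μ)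
        ≤ ∫ x, ∫ y, inner ℝ (L x) y ^ 2 ∂μ ∂μ

/-- The second moment of a linear image under a reweighting. -/
def WeightedNorm : Prop :=
  ∃ C : ℝ, 1 ≤ C ∧ ∀ (n : ℕ) (μ : Measure (Space n)) (R r v : ℝ), Car μ R → 0 ≤ r → 0 < v →
    Conc μ r v → ∀ (L : Space n →L[ℝ] Space n) (l lam : ℝ), 0 ≤ l → ‖L‖ ≤ l → 0 < lam →
      ∀ w : Space n → ℝ, Continuous w → (∀ x, 0 < w x) → ∫ x, w x ∂μ = 1 →
        (∫ x, w x * ‖L x‖ ^ 2 ∂μ ≤ (1 + lam) * ∫ x, ‖L x‖ ^ 2 ∂μ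
            + C * (1 + lam + 1 / lam) * v * l ^ 2 * (ent μ w + r + 1)) ∧
        ((1 - lam) * ∫ x, ‖L x‖ ^ 2 ∂μ
            - C * (1 + lam + 1 / lam) * v * l ^ 2 * (ent μ w + r + 1)
          ≤ ∫ x, w x * ‖L x‖ ^ 2 ∂μ)

/-- The crude divergence bound. -/
def RenyiCrude : Prop :=
  ∃ C : ℝ, 1 ≤ C ∧ ∀ (n : ℕ) (μ : Measure (Space n)) (R : ℝ), 1 ≤ n → IsSLC 0 μ → Sub1 μ → Car μ R →
    ∀ t : ℝ, 0 < t → C * t ≤ 1 → RenyiLe μ t (C * t ^ 2 * n)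

/-- The refined divergence bound. -/
def RenyiMain (q : ℕ) : Prop :=
  ∃ C : ℝ, 1 ≤ C ∧ ∀ (n : ℕ) (μ : Measure (Space n)) (R : ℝ), 1 ≤ n → IsSLC 0 μ → Sub1 μ → Car μ R →
    ∀ t lam r v K : ℝ, 0 < t → C * t ≤ 1 → 0 < lam → lam ≤ 1 → 0 ≤ r → 1 ≤ v → Conc μ r v →
      0 ≤ K → LSIle μ K → C * K * t ^ 4 ≤ 1 →
      RenyiLe μ t (C * (lam * t ^ 2 * n
        + t ^ 2 / lam * v * (n : ℝ) ^ (2 * (q : ℝ)⁻¹) * (t ^ 2 * n + r + 1)
        + t ^ 3 * n + K * t ^ 4 * n + 1))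

end Vale.Agent.P245
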