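import Vale.Agent.P245.Push.Replica
import Vale.Agent.P245.Push.GaussQuad
import Vale.Agent.P245.GradBound
import Vale.Agent.P245.Rotation

/-!
Concentration of Lipschitz functions from the divergence of the channel to its Gaussian reference.
-/

noncomputable section

open MeasureTheory Set Filter Topology Matrix
open scoped ENNReal

namespace Vale.Agent.P245

variable {n : ℕ} {μ : Measure (Space n)} {R : ℝ}

/-- Exponential moments of Lipschitz functions of a standard Gaussian vector. -/
theorem gam_exp_lip_le {φ : Space n → ℝ} (hφ : ContDiff ℝ 1 φ) {B l : ℝ} (hB : ∀ x, |φ x| ≤ B)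
    (hl : ∀ x, ‖fderiv ℝ φ x‖ ≤ l) :
    ∫ x, Real.exp (φ x) ∂gam n ≤ Real.exp (∫ x, φ x ∂gam n + 2 * l ^ 2) := by
  have hφc := hφ.continuous
  set G : Space n → Space n := fun x => (InnerProductSpace.toDual ℝ (Space n)).symm (fderiv ℝ φ x)
    with hGdef
  have hGc : Continuous G :=
    (InnerProductSpace.toDual ℝ (Space n)).symm.continuous.comp (hφ.continuous_fderiv one_ne_zero)
  have hG : ∀ x, HasFDerivAt φ (innerSL ℝ (G x)) x := fun x => by
    refine (hφ.differentiable one_ne_zero x).hasFDerivAt.congr_fderiv ?_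
    ext v
    simp [hGdef, InnerProductSpace.toDual_symm_apply]
  have hGn : ∀ x, ‖G x‖ ≤ l := fun x => by
    simp only [hGdef, LinearIsometryEquiv.norm_map]; exact hl x
  have h := lintegral_exp_sub_le hG hGc
  have h2 : ∫⁻ x, ENNReal.ofReal (Real.exp (Real.pi ^ 2 / 8 * ‖G x‖ ^ 2)) ∂gam n
      ≤ ENNReal.ofReal (Real.exp (2 * l ^ 2)) := by
    refine le_trans (lintegral_mono (g := fun _ => ENNReal.ofReal (Real.exp (2 * l ^ 2)))
      fun x => ENNReal.ofReal_le_ofReal (Real.exp_le_exp.2 ?_)) (by simp)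
    exact mul_le_mul (by nlinarith [Real.pi_pos, Real.pi_le_four])
      (pow_le_pow_left₀ (norm_nonneg _) (hGn x) 2) (sq_nonneg _) zero_le_two
  have hint : Integrable (fun p : Space n × Space n => Real.exp (φ p.1 - φ p.2))
      ((gam n).prod (gam n)) := by
    refine Integrable.of_bound (by fun_prop) (Real.exp (2 * B)) (ae_of_all _ fun p => ?_)
    rw [Real.norm_eq_abs, Real.abs_exp]
    exact Real.exp_le_exp.2 (by linarith [(abs_le.1 (hB p.1)).2, (abs_le.1 (hB p.2)).1])
  rw [← ofReal_integral_eq_lintegral_ofReal hint (ae_of_all _ fun p => (Real.exp_pos _).le)] at h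
  have h3 := (ENNReal.ofReal_le_ofReal_iff (Real.exp_pos _).le).1 (h.trans h2)
  simp only [Real.exp_sub, div_eq_mul_inv, ← Real.exp_neg] at h3
  rw [integral_prod_mul (fun x => Real.exp (φ x)) fun y => Real.exp (-φ y)] at h3
  have hi : ∀ g : Space n → ℝ, Continuous g → (∃ C, ∀ x, |g x| ≤ C) → Integrable g (gam n) :=
    fun g hg ⟨C, hC⟩ => Integrable.of_bound hg.aestronglyMeasurable C (ae_of_all _ hC)
  have hneg : Real.exp (-∫ x, φ x ∂gam n) ≤ ∫ y, Real.exp (-φ y) ∂gam n := by
    rw [← integral_neg]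
    exact convexOn_exp.map_integral_le Real.continuous_exp.continuousOn isClosed_univ
      (ae_of_all _ fun _ => mem_univ _) (hi _ (by fun_prop) ⟨B, fun x => by rw [abs_neg]; exact hB x⟩)
      (hi _ (by fun_prop) ⟨Real.exp B, fun x => by
        rw [Function.comp_apply, Real.abs_exp]
        exact Real.exp_le_exp.2 ((neg_le_abs _).trans (hB x))⟩)
  have hpos : 0 ≤ ∫ x, Real.exp (φ x) ∂gam n := integral_nonneg fun x => (Real.exp_pos _).le
  have h4 := (mul_le_mul_of_nonneg_left hneg hpos).trans h3
  rw [Real.exp_neg, ← div_eq_mul_inv, div_le_iff₀ (Real.exp_pos _)] at h4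
  rwa [add_comm, Real.exp_add]

theorem concOfRenyi_of (hG : GaussQuad) (hH : HerbstBound) : ConcOfRenyi := by
  refine ⟨130, by norm_num, fun n μ R hs hS hμ t r ht ht4 hren f hf hfd s0 => ?_⟩
  have := hμ.prob
  have hfc := hf.continuous
  obtain ⟨U, lam, hE⟩ := exists_eig (posSemidef_covM hμ)
  set c : Fin n → ℝ := fun i => t * lam i with hc
  have hc1 : ∀ i, c i ≤ 1 / 4 := fun i => by
    simp only [hc]
    exact (mul_le_mul ht4 (hE.lam_le_one hS hμ i) (hE.nonneg i) (by norm_num)).trans (by norm_num)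
  have hc0 : ∀ i, c i < 1 := fun i => by linarith [hc1 i]
  set d : Fin n → ℝ := fun i => (√(1 - c i))⁻¹ with hd
  set T : Space n →L[ℝ] Space n := Matrix.toEuclideanCLM (n := Fin n) (𝕜 := ℝ) (U * diagonal d) with hT
  have hTn : ‖T‖ ≤ 2 := by
    refine ContinuousLinearMap.opNorm_le_bound _ two_pos.le fun x => ?_
    refine (pow_le_pow_iff_left₀ (norm_nonneg _) (by positivity) two_ne_zero).1 ?_
    have e : eco U (T x) = fun i => d i * x i := by
      funext i
      simp only [eco, hT, Matrix.ofLp_toEuclideanCLM]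
      rw [Matrix.mulVec_mulVec, ← Matrix.mul_assoc, hE.left, Matrix.one_mul, Matrix.mulVec_diagonal]
    rw [← real_inner_self_eq_norm_sq, inner_eq_eco hE.right, e, mul_pow, EuclideanSpace.norm_sq_eq,
      Finset.mul_sum]
    refine Finset.sum_le_sum fun i _ => ?_
    have h1 : 0 < 1 - c i := by linarith [hc0 i]
    have h2 : d i ^ 2 ≤ 4 := by
      rw [hd, inv_pow, Real.sq_sqrt h1.le, inv_le_comm₀ h1 (by norm_num)]
      linarith [hc1 i]
    calc d i * x i * (d i * x i) = d i ^ 2 * x i ^ 2 := by ring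
      _ ≤ 4 * x i ^ 2 := mul_le_mul_of_nonneg_right h2 (sq_nonneg _)
      _ = _ := by rw [Real.norm_eq_abs, sq_abs]; norm_num
  set N := (∏ i, √(1 - c i))⁻¹ with hN
  have hN0 : 0 < N := inv_pos.2 (Finset.prod_pos fun i _ => Real.sqrt_pos.2 (by linarith [hc0 i]))
  have hquad : ∀ u : Space n → ℝ,
      ∫ g, u g * Real.exp (t / 2 * qA μ g) ∂gam n = N * ∫ g, u (T g) ∂gam n := by
    intro u
    have e : ∀ g : Space n, t / 2 * qA μ g
        = 1 / 2 * (g.ofLp ⬝ᵥ (U * diagonal c * Uᵀ) *ᵥ g.ofLp) := fun g => by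
      rw [← sum_eco_mul, qA_eq_eco hE, Finset.mul_sum, Finset.mul_sum]
      exact Finset.sum_congr rfl fun i _ => by simp only [hc]; ring
    simp only [e]
    exact hG n U c hE.left hE.right hc0 u
  have hNeq : ∫ g, Real.exp (t / 2 * qA μ g) ∂gam n = N := by simpa using hquad fun _ => 1
  have ha : Adm R f := adm_continuous hfc R
  set F : Space n → ℝ := fun g => M μ f (t, √t • g) with hF
  have hFd : ContDiff ℝ 1 F := by
    have h1 := (contDiff_Nf hμ 1 ha).comp (f := fun g : Space n => ((t, √t • g) : Par n))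
      (contDiff_const.prodMk (contDiff_const_smul √t))
    have h2 := (contDiff_Nf hμ 1 (adm_continuous (continuous_const (y := (1 : ℝ))) R)).comp
      (f := fun g : Space n => ((t, √t • g) : Par n)) (contDiff_const.prodMk (contDiff_const_smul √t))
    exact h1.div h2 fun g => (Zf_pos hμ _).ne'
  obtain ⟨B, hB⟩ := bounded_M hμ ha
  have hgrad : ∀ g, ‖fderiv ℝ F g‖ ≤ 2 / √t := by
    intro g
    set p : Par n := (t, √t • g) with hp
    have hslc : IsSLC (0 + t) (tlt μ p) := hs.tlt p
    rw [zero_add] at hslc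
    have hν := hμ.tlt p
    have := hν.prob
    obtain ⟨v, hv, hcov⟩ := grad2_eq_cov hμ hfc p
    have hvb : ‖v‖ ≤ 2 / t := by
      set m := ∫ y, f y ∂tlt μ p with hm
      set Y : Space n → ℝ := fun x => inner ℝ v x - ∫ y, inner ℝ v y ∂tlt μ p with hY
      have hYc : Continuous Y := by simp only [hY]; fun_prop
      have hi : ∀ u : Space n → ℝ, Continuous u → Integrable u (tlt μ p) := fun u hu => hν.int_cont hu
      have e0 : ∫ x, Y x ∂tlt μ p = 0 := by
        simp only [hY]; rw [integral_sub (hi _ (by fun_prop)) (integrable_const _)]; simp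
      have e1 : ‖v‖ ^ 2 = ∫ x, (f x - m) * Y x ∂tlt μ p := by
        simp only [sub_mul]
        rw [integral_sub (hi _ (by fun_prop)) (hi _ (by fun_prop)), integral_const_mul, e0, mul_zero,
          sub_zero, hv, hcov]
      have h2 := cs_sq hν (f := fun x => f x - m) (g := Y) (by fun_prop) hYc
      rw [← e1] at h2
      have h3 : var (tlt μ p) f ≤ 2 / t := by
        refine (hslc.poincare ht hf).trans (mul_le_of_le_one_right (by positivity) ?_)
        refine (integral_mono ((hi _ ?_)) (integrable_const 1) fun x => ?_).trans (by simp)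
        · exact (hf.continuous_fderiv (by norm_num)).norm.pow 2
        · exact pow_le_one₀ (norm_nonneg _) (hfd x)
      have h4 := hslc.var_inner ht v
      have h5 : (‖v‖ ^ 2) ^ 2 ≤ (2 / t) * (2 / t * ‖v‖ ^ 2) :=
        h2.trans (mul_le_mul h3 h4 (integral_nonneg fun x => sq_nonneg _) (by positivity))
      rcases (norm_nonneg v).eq_or_lt with h0 | h0
      · rw [← h0]; positivity
      · refine (pow_le_pow_iff_left₀ (norm_nonneg _) (by positivity) two_ne_zero).1 ?_
        refine le_of_mul_le_mul_right ?_ (show 0 < ‖v‖ ^ 2 by positivity)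
        linarith
    refine ContinuousLinearMap.opNorm_le_bound _ (by positivity) fun w => ?_
    have hlin : fderiv ℝ F g w = √t * ∑ i, w i * (Jet.mom μ f).d i p := by
      have hL : HasFDerivAt (fun g : Space n => ((t, √t • g) : Par n))
          ((0 : Space n →L[ℝ] ℝ).prod (√t • ContinuousLinearMap.id ℝ (Space n))) g :=
        (hasFDerivAt_const t g).prodMk ((hasFDerivAt_id g).const_smul √t)
      have hM := (differentiable_M hμ ha p).hasFDerivAt.comp g hL
      rw [show F = M μ f ∘ fun g : Space n => ((t, √t • g) : Par n) from rfl, hM.fderiv,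
        ContinuousLinearMap.comp_apply, ContinuousLinearMap.prod_apply]
      simp only [_root_.zero_apply, _root_.smul_apply, ContinuousLinearMap.id_apply]
      rw [show (((0 : ℝ), √t • w) : Par n) = √t • ((0 : ℝ), w) by simp, map_smul, dir_decomp w,
        map_sum, smul_eq_mul]
      refine congrArg _ (Finset.sum_congr rfl fun i _ => ?_)
      rw [map_smul, smul_eq_mul]
      congr 1
      have hline : HasDerivAt (fun r : ℝ => p + r • ex i) (ex i) 0 := by
        simpa using ((hasDerivAt_id (0 : ℝ)).smul_const (ex i)).const_add p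
      exact ((differentiable_M hμ ha p).hasFDerivAt.comp_hasDerivAt_of_eq (0 : ℝ) hline
        (by simp)).unique ((Jet.mom_valid hμ ha).hd i p)
    rw [hlin, norm_mul, Real.norm_eq_abs, Real.norm_eq_abs, abs_of_nonneg (Real.sqrt_nonneg t)]
    have hcs : |∑ i, w i * (Jet.mom μ f).d i p| ≤ ‖w‖ * ‖v‖ := by
      have e : ∑ i, w i * (Jet.mom μ f).d i p
          = inner ℝ w (WithLp.toLp 2 fun i => (Jet.mom μ f).d i p) := by
        simp [PiLp.inner_apply, mul_comm]
      rw [e]
      refine (abs_real_inner_le_norm _ _).trans (mul_le_mul_of_nonneg_left (le_of_eq ?_) (norm_nonneg _))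
      refine (sq_eq_sq₀ (norm_nonneg _) (norm_nonneg _)).1 ?_
      rw [hv, EuclideanSpace.norm_sq_eq, grad2]
      exact Finset.sum_congr rfl fun i _ => by rw [Real.norm_eq_abs, sq_abs]
    calc √t * |∑ i, w i * (Jet.mom μ f).d i p| ≤ √t * (‖w‖ * (2 / t)) :=
          mul_le_mul_of_nonneg_left (hcs.trans (mul_le_mul_of_nonneg_left hvb (norm_nonneg _)))
            (Real.sqrt_nonneg t)
      _ = 2 / √t * ‖w‖ := by
          have h1 := Real.sq_sqrt ht.le
          have h2 : √t ≠ 0 := (Real.sqrt_pos.2 ht).ne'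
          field_simp
          linear_combination ‖w‖ * h1
  set m := ∫ g, F (T g) ∂gam n with hm
  have key : ∀ s : ℝ,
      ∫ x, Real.exp (s * f x) ∂μ ≤ Real.exp (r / 2 + 65 * s ^ 2 / t + s * m) := by
    intro s
    have hEa : Adm R fun x => Real.exp (s * f x) := adm_continuous (by fun_prop) R
    have htilt : ∀ g, M μ (fun x => Real.exp (s * f x)) (t, √t • g)
        ≤ Real.exp (s ^ 2 / (2 * t)) * Real.exp (s * F g) := by
      intro g
      set p : Par n := (t, √t • g)
      have hslc : IsSLC (0 + t) (tlt μ p) := hs.tlt p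
      rw [zero_add] at hslc
      have h := hH n (tlt μ p) R (2 / t) 1 (hμ.tlt p) (by positivity) (fun u hu => hslc.lsi ht hu) f hf
        (fun x _ => hfd x) s
      rw [← M_eq] at h
      have e : ∀ x, Real.exp (s * (f x - M μ f p)) = Real.exp (-(s * F g)) * Real.exp (s * f x) :=
        fun x => by rw [← Real.exp_add]; congr 1; simp only [hF]; ring
      simp only [e, ← M_eq, M_smul] at h
      rw [Real.exp_neg, inv_mul_le_iff₀ (Real.exp_pos _)] at h
      refine h.trans_eq ?_
      rw [mul_comm]; congr 2; field_simp; ring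
    have hFc := hFd.continuous
    set ψ : Space n → ℝ := fun g => 2 * s * F (T g) with hψ
    have hψd : ContDiff ℝ 1 ψ := contDiff_const.mul (hFd.comp T.contDiff)
    have hψl : ∀ g, ‖fderiv ℝ ψ g‖ ≤ 2 * |s| * (4 / √t) := by
      intro g
      have h1 : HasFDerivAt ψ ((2 * s) • (fderiv ℝ F (T g)).comp T) g :=
        ((hFd.differentiable one_ne_zero _).hasFDerivAt.comp g T.hasFDerivAt).const_mul (2 * s)
      rw [h1.fderiv, norm_smul, Real.norm_eq_abs, abs_mul, abs_two]
      refine mul_le_mul_of_nonneg_left ?_ (by positivity)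
      refine (ContinuousLinearMap.opNorm_comp_le _ _).trans ?_
      refine (mul_le_mul (hgrad _) hTn (norm_nonneg _) (by positivity)).trans_eq ?_
      ring
    have hexp := gam_exp_lip_le hψd (B := 2 * |s| * B) (fun g => by
      simp only [hψ, abs_mul, abs_two]
      exact mul_le_mul_of_nonneg_left (hB _) (by positivity)) hψl
    have hψm : ∫ g, ψ g ∂gam n = 2 * s * m := integral_const_mul (2 * s) _
    have hl2 : 2 * (2 * |s| * (4 / √t)) ^ 2 = 128 * s ^ 2 / t := by
      rw [mul_pow, mul_pow, sq_abs, div_pow, Real.sq_sqrt ht.le]; ring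
    rw [hψm, hl2] at hexp
    set β := 2 * s * m + 128 * s ^ 2 / t with hβ
    set κ := Real.exp ((β - r) / 2) * N with hκ
    have hκ0 : 0 < κ := by positivity
    set a : Space n → ℝ := fun g => Zf μ (t, √t • g) * Real.exp (-(t / 4) * qA μ g) with hadef
    set b : Space n → ℝ := fun g => Real.exp (s * F g) * Real.exp (t / 4 * qA μ g) with hbdef
    have hab : ∀ g, Real.exp (s * F g) * Zf μ (t, √t • g) = a g * b g := fun g => by
      simp only [hadef, hbdef]
      have : Real.exp (-(t / 4) * qA μ g) * Real.exp (t / 4 * qA μ g) = 1 := by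
        rw [← Real.exp_add]; simp
      linear_combination -(Zf μ (t, √t • g) * Real.exp (s * F g)) * this
    have ha2 : ∀ g, a g ^ 2 = Zf μ (t, √t • g) ^ 2 * Real.exp (-(t / 2) * qA μ g) := fun g => by
      simp only [hadef, mul_pow, ← Real.exp_nat_mul]; congr 2; push_cast; ring
    have hb2 : ∀ g, b g ^ 2 = Real.exp (2 * s * F g) * Real.exp (t / 2 * qA μ g) := fun g => by
      simp only [hbdef, mul_pow, ← Real.exp_nat_mul]; congr 2 <;> push_cast <;> ring
    have hZc : Continuous fun g : Space n => Zf μ (t, √t • g) :=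
      (continuous_Zf hμ).comp (by fun_prop)
    have hqle : ∀ g, qA μ g ≤ ‖g‖ ^ 2 := fun g => by
      refine (hS.op_le_one hμ g.ofLp).trans_eq ?_
      rw [EuclideanSpace.norm_sq_eq]; simp [dotProduct, sq]
    have ia : Integrable (fun g => a g ^ 2) (gam n) := by
      have ht2 : Tame fun g => Zf μ (t, √t • g) ^ 2 * Real.exp (-(t / 2) * qA μ g) := by
        refine Tame.mul ?_ (Tame.of_bdd (C := 1) fun g => ?_)
        · have := (tame_Zf hμ t).mul (tame_Zf hμ t)
          simpa [sq] using this
        · rw [Real.abs_exp, Real.exp_le_one_iff]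
          have := mul_nonneg (show 0 ≤ t / 2 by linarith) (qA_nonneg hμ g)
          linarith
      simp only [ha2]
      exact ht2.integrable (by fun_prop)
    have ib : Integrable (fun g => b g ^ 2) (gam n) := by
      simp only [hb2]
      refine Integrable.mono' ((gam_exp_sq (n := n) (u := 1 / 4) (by norm_num)).1.const_mul
        (Real.exp (2 * |s| * B))) (by fun_prop) (ae_of_all _ fun g => ?_)
      rw [Real.norm_eq_abs, abs_mul, Real.abs_exp, Real.abs_exp]
      refine mul_le_mul (Real.exp_le_exp.2 ?_) (Real.exp_le_exp.2 ?_) (Real.exp_pos _).le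
        (Real.exp_pos _).le
      · refine (le_abs_self _).trans ?_
        rw [abs_mul, abs_mul, abs_two]
        exact mul_le_mul_of_nonneg_left (hB _) (by positivity)
      · have := mul_le_mul (show t / 2 ≤ 1 / 4 by linarith) (hqle g) (qA_nonneg hμ g) (by norm_num)
        exact this
    have hEt : Et μ t (fun p => Real.exp (s * M μ f p)) ≤ Real.exp ((β + r) / 2) := by
      have hpt : ∀ g, Real.exp (s * F g) * Zf μ (t, √t • g)
          ≤ κ / 2 * a g ^ 2 + 1 / (2 * κ) * b g ^ 2 := fun g => by
        rw [hab]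
        have e : κ / 2 * a g ^ 2 + 1 / (2 * κ) * b g ^ 2 - a g * b g
            = (κ * a g - b g) ^ 2 / (2 * κ) := by field_simp; ring
        linarith [show 0 ≤ (κ * a g - b g) ^ 2 / (2 * κ) by positivity]
      refine (integral_mono_of_nonneg (ae_of_all _ fun g => mul_nonneg (Real.exp_pos _).le
        (Zf_pos hμ _).le) ((ia.const_mul _).add (ib.const_mul _)) (ae_of_all _ hpt)).trans ?_
      simp only [Pi.add_apply]
      rw [integral_add (ia.const_mul _) (ib.const_mul _), integral_const_mul, integral_const_mul]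
      simp only [ha2, hb2]
      rw [hquad fun g => Real.exp (2 * s * F g)]
      have hA := hren
      rw [RenyiLe, hNeq] at hA
      have h1 : κ / 2 * ∫ g, Zf μ (t, √t • g) ^ 2 * Real.exp (-(t / 2) * qA μ g) ∂gam n
          ≤ Real.exp ((β - r) / 2) / 2 * Real.exp r := by
        rw [hκ]
        have := mul_le_mul_of_nonneg_left hA (show 0 ≤ Real.exp ((β - r) / 2) / 2 by positivity)
        linarith
      have h2 : 1 / (2 * κ) * (N * ∫ g, Real.exp (2 * s * F (T g)) ∂gam n)
          ≤ 1 / (2 * Real.exp ((β - r) / 2)) * Real.exp β := by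
        rw [hκ]
        calc 1 / (2 * (Real.exp ((β - r) / 2) * N)) * (N * ∫ g, Real.exp (2 * s * F (T g)) ∂gam n)
            = 1 / (2 * Real.exp ((β - r) / 2)) * ∫ g, Real.exp (2 * s * F (T g)) ∂gam n := by
              field_simp
          _ ≤ _ := mul_le_mul_of_nonneg_left hexp (by positivity)
      refine (add_le_add h1 h2).trans_eq ?_
      rw [div_mul_eq_mul_div, ← Real.exp_add,
        show 1 / (2 * Real.exp ((β - r) / 2)) * Real.exp β
          = Real.exp β * (Real.exp ((β - r) / 2))⁻¹ / 2 by field_simp,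
        ← Real.exp_neg, ← Real.exp_add]
      ring_nf
    have hMo : Obs (M μ fun x => Real.exp (s * f x)) := obs_M hμ hEa
    have hFo : Obs fun p : Par n => Real.exp (s * M μ f p) :=
      (obs_M hμ ha).comp_continuous (g := fun u => Real.exp (s * u)) (by fun_prop)
    rw [← Et_M hμ hEa ht.le]
    refine (Et_mono hμ hMo ((Obs.const _).mul hFo) t htilt).trans ?_
    rw [Et_smul]
    refine (mul_le_mul_of_nonneg_left hEt (Real.exp_pos _).le).trans ?_
    rw [← Real.exp_add]
    refine Real.exp_le_exp.2 ?_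
    rw [hβ, show s ^ 2 / (2 * t) = 1 / 2 * (s ^ 2 / t) by ring,
      show 128 * s ^ 2 / t = 128 * (s ^ 2 / t) by ring, show 65 * s ^ 2 / t = 65 * (s ^ 2 / t) by ring]
    have : 0 ≤ s ^ 2 / t := by positivity
    linarith
  set m0 := ∫ y, f y ∂μ with hm0
  have hj : ∀ s : ℝ, s * m0 ≤ r / 2 + 65 * s ^ 2 / t + s * m := by
    intro s
    refine Real.exp_le_exp.1 (le_trans ?_ (key s))
    rw [hm0, ← integral_const_mul]
    exact convexOn_exp.map_integral_le Real.continuous_exp.continuousOn isClosed_univ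
      (ae_of_all _ fun _ => mem_univ _) (hμ.int_cont (by fun_prop)) (hμ.int_cont (by fun_prop))
  have e : ∀ x, Real.exp (s0 * (f x - m0)) = Real.exp (-(s0 * m0)) * Real.exp (s0 * f x) := fun x => by
    rw [← Real.exp_add]; congr 1; ring
  simp only [e, integral_const_mul]
  refine (mul_le_mul_of_nonneg_left (key s0) (Real.exp_pos _).le).trans ?_
  rw [← Real.exp_add]
  refine Real.exp_le_exp.2 ?_
  have h1 := hj (-s0)
  rw [neg_sq] at h1
  rw [show 130 / t * s0 ^ 2 = 2 * (65 * s0 ^ 2 / t) by ring]
  linarith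

end Vale.Agent.P245
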