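import Vale.Agent.P245.Push.Pins
import Vale.Agent.P245.Tail
import Vale.Agent.P245.Defective

/-!
Replicas of the channel: the divergence to the Gaussian reference as an exponential moment of the
log-Laplace transform with a quadratic correction, and the crude bound.
-/

noncomputable section

open MeasureTheory Set Filter Topology Matrix
open scoped ENNReal

namespace Vale.Agent.P245

variable {n : ℕ} {μ : Measure (Space n)} {R : ℝ}

/-- The covariance as a linear map. -/
def covL (μ : Measure (Space n)) : Space n →L[ℝ] Space n :=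
  Matrix.toEuclideanCLM (n := Fin n) (𝕜 := ℝ) (covM μ)

/-- The linear map coupling two replicas. -/
def repL (μ : Measure (Space n)) (t : ℝ) : Space n →L[ℝ] Space n :=
  ContinuousLinearMap.id ℝ (Space n) - t • covL μ

/-- The quadratic correction of a replica. -/
def aCor (μ : Measure (Space n)) (t : ℝ) (x : Space n) : ℝ :=
  t ^ 2 / 2 * qA μ x - t ^ 3 * ‖covL μ x‖ ^ 2

/-- The log-Laplace transform of the corrected measure. -/
def repF (μ : Measure (Space n)) (t : ℝ) (y : Space n) : ℝ :=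
  Real.log (∫ x, Real.exp (t * inner ℝ (repL μ t x) y - aCor μ t x) ∂μ)

/-- The second moment of the covariance. -/
def covT (μ : Measure (Space n)) : ℝ := ∫ x, qA μ x ∂μ

/-- The coordinates in an eigenbasis. -/
def eco (U : Mat n) (x : Space n) (i : Fin n) : ℝ := (Uᵀ *ᵥ x.ofLp) i

theorem covL_apply (μ : Measure (Space n)) (x : Space n) :
    (covL μ x).ofLp = covM μ *ᵥ x.ofLp := by simp [covL]

@[fun_prop]
theorem continuous_qA (μ : Measure (Space n)) : Continuous (qA μ) := by
  unfold qA dotProduct Matrix.mulVec dotProduct; fun_prop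

@[fun_prop]
theorem continuous_aCor (μ : Measure (Space n)) (t : ℝ) : Continuous (aCor μ t) := by
  unfold aCor; fun_prop

theorem qA_nonneg (hμ : Car μ R) (x : Space n) : 0 ≤ qA μ x := by
  simpa [qA] using (posSemidef_covM hμ).dotProduct_mulVec_nonneg x.ofLp

section eigen

variable {U : Mat n} {lam : Fin n → ℝ}

theorem sum_eco_mul (c : Fin n → ℝ) (x y : Space n) :
    ∑ i, c i * eco U x i * eco U y i = x.ofLp ⬝ᵥ (U * diagonal c * Uᵀ) *ᵥ y.ofLp := by
  rw [← Matrix.mulVec_mulVec, ← Matrix.mulVec_mulVec, Matrix.dotProduct_mulVec,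
    ← Matrix.mulVec_transpose]
  simp only [dotProduct, Matrix.mulVec_diagonal, eco]
  exact Finset.sum_congr rfl fun i _ => by ring

theorem inner_eq_eco (hU : U * Uᵀ = 1) (x y : Space n) :
    inner ℝ x y = ∑ i, eco U x i * eco U y i := by
  have h := sum_eco_mul (U := U) (fun _ => 1) x y
  simp only [one_mul, diagonal_one, Matrix.mul_one, hU, Matrix.one_mulVec] at h
  rw [h]
  simp [PiLp.inner_apply, dotProduct, mul_comm]

theorem qA_eq_eco (hE : Eig (covM μ) U lam) (x : Space n) :
    qA μ x = ∑ i, lam i * eco U x i ^ 2 := by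
  rw [qA, hE.eq, ← sum_eco_mul]
  exact Finset.sum_congr rfl fun i _ => by ring

theorem eco_covL (hE : Eig (covM μ) U lam) (x : Space n) (i : Fin n) :
    eco U (covL μ x) i = lam i * eco U x i := by
  rw [eco, covL_apply, hE.eq, Matrix.mulVec_mulVec, ← Matrix.mul_assoc, ← Matrix.mul_assoc,
    hE.left, Matrix.one_mul, ← Matrix.mulVec_mulVec, Matrix.mulVec_diagonal, eco]

theorem aCor_eq_eco (hE : Eig (covM μ) U lam) (t : ℝ) (x : Space n) :
    aCor μ t x = ∑ i, (t ^ 2 / 2 * lam i - t ^ 3 * lam i ^ 2) * eco U x i ^ 2 := by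
  rw [aCor, qA_eq_eco hE, ← real_inner_self_eq_norm_sq, inner_eq_eco hE.right, Finset.mul_sum,
    Finset.mul_sum, ← Finset.sum_sub_distrib]
  refine Finset.sum_congr rfl fun i _ => ?_
  rw [eco_covL hE]; ring

theorem eco_repL (hE : Eig (covM μ) U lam) (t : ℝ) (x : Space n) (i : Fin n) :
    eco U (repL μ t x) i = (1 - t * lam i) * eco U x i := by
  have e : (repL μ t x).ofLp = x.ofLp - t • (covL μ x).ofLp := by simp [repL]
  have h1 := eco_covL hE x i
  simp only [eco] at h1 ⊢
  rw [e, Matrix.mulVec_sub, Matrix.mulVec_smul, Pi.sub_apply, Pi.smul_apply, smul_eq_mul, h1]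
  ring

theorem inner_repL_eco (hE : Eig (covM μ) U lam) (t : ℝ) (x y : Space n) :
    inner ℝ (repL μ t x) y = ∑ i, (1 - t * lam i) * eco U x i * eco U y i := by
  rw [inner_eq_eco hE.right]
  exact Finset.sum_congr rfl fun i _ => by rw [eco_repL hE]

theorem Eig.lam_le_one (hE : Eig (covM μ) U lam) (hS : Sub1 μ) (hμ : Car μ R) (i : Fin n) :
    lam i ≤ 1 := by
  have h := hS.op_le_one hμ fun j => U j i
  have e1 : (fun j => U j i) ⬝ᵥ covM μ *ᵥ (fun j => U j i) = lam i := by
    have h2 := congrFun (congrFun hE.diag_eq i) i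
    rw [Matrix.diagonal_apply_eq] at h2
    rw [← h2]
    simp only [Matrix.mul_apply, Matrix.transpose_apply, dotProduct, Matrix.mulVec, Finset.mul_sum,
      Finset.sum_mul]
    rw [Finset.sum_comm]
    exact Finset.sum_congr rfl fun a _ => Finset.sum_congr rfl fun b _ => by ring
  have e2 : (fun j => U j i) ⬝ᵥ (fun j => U j i) = 1 := by
    have h2 := congrFun (congrFun hE.left i) i
    rw [Matrix.one_apply_eq] at h2
    rw [← h2]
    simp [Matrix.mul_apply, dotProduct]
  linarith

theorem covT_eq (hE : Eig (covM μ) U lam) (hS : Sub1 μ) (hμ : Car μ R) :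
    covT μ = ∑ i, lam i ^ 2 := by
  simp only [covT, qA_eq_eco hE]
  rw [integral_finsetSum _ fun i _ => hμ.int_cont (by unfold eco Matrix.mulVec dotProduct; fun_prop)]
  refine Finset.sum_congr rfl fun i _ => ?_
  rw [integral_const_mul, sq (lam i)]
  congr 1
  have e : ∀ x : Space n, eco U x i ^ 2 = ((fun j => U j i) ⬝ᵥ cen μ x) ^ 2 := fun x => by
    simp [eco, Matrix.mulVec, dotProduct, cen, hS.integral_cen_eq hμ, Matrix.transpose_apply]
  simp only [e]
  rw [integral_dot_sq hμ]
  have h2 := congrFun (congrFun hE.diag_eq i) i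
  rw [Matrix.diagonal_apply_eq] at h2
  rw [← h2]
  simp only [Matrix.mul_apply, Matrix.transpose_apply, dotProduct, Matrix.mulVec, Finset.mul_sum,
    Finset.sum_mul]
  rw [Finset.sum_comm]
  exact Finset.sum_congr rfl fun a _ => Finset.sum_congr rfl fun b _ => by ring

end eigen

theorem covT_le (hS : Sub1 μ) (hμ : Car μ R) : 0 ≤ covT μ ∧ covT μ ≤ n := by
  obtain ⟨U, lam, hE⟩ := exists_eig (posSemidef_covM hμ)
  rw [covT_eq hE hS hμ]
  refine ⟨Finset.sum_nonneg fun i _ => sq_nonneg _, ?_⟩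
  exact le_trans (Finset.sum_le_sum (g := fun _ => (1 : ℝ)) fun i _ =>
    pow_le_one₀ (hE.nonneg i) (hE.lam_le_one hS hμ i)) (by simp)

theorem aCor_nonneg (hS : Sub1 μ) (hμ : Car μ R) {t : ℝ} (ht2 : t ≤ 1 / 2) (x : Space n) :
    0 ≤ aCor μ t x := by
  obtain ⟨U, lam, hE⟩ := exists_eig (posSemidef_covM hμ)
  rw [aCor_eq_eco hE]
  refine Finset.sum_nonneg fun i _ => mul_nonneg ?_ (sq_nonneg _)
  have h0 := hE.nonneg i
  have h1 := mul_le_mul ht2 (hE.lam_le_one hS hμ i) h0 (by norm_num)
  nlinarith [mul_nonneg (mul_nonneg (sq_nonneg t) h0) (show 0 ≤ 1 / 2 - t * lam i by linarith)]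

theorem norm_covL_le (hS : Sub1 μ) (hμ : Car μ R) (x : Space n) : ‖covL μ x‖ ≤ ‖x‖ := by
  obtain ⟨U, lam, hE⟩ := exists_eig (posSemidef_covM hμ)
  refine (pow_le_pow_iff_left₀ (norm_nonneg _) (norm_nonneg _) two_ne_zero).1 ?_
  rw [← real_inner_self_eq_norm_sq, ← real_inner_self_eq_norm_sq, inner_eq_eco hE.right,
    inner_eq_eco hE.right]
  refine Finset.sum_le_sum fun i _ => ?_
  rw [eco_covL hE]
  nlinarith [mul_self_nonneg (eco U x i), hE.nonneg i, hE.lam_le_one hS hμ i,
    mul_le_mul (hE.lam_le_one hS hμ i) (hE.lam_le_one hS hμ i) (hE.nonneg i) zero_le_one]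

theorem norm_repL_le (hS : Sub1 μ) (hμ : Car μ R) {t : ℝ} (ht : 0 ≤ t) (ht2 : t ≤ 1 / 2)
    (x : Space n) : ‖repL μ t x‖ ≤ ‖x‖ := by
  obtain ⟨U, lam, hE⟩ := exists_eig (posSemidef_covM hμ)
  have h : inner ℝ (repL μ t x) (repL μ t x)
      = ∑ i, (1 - t * lam i) ^ 2 * (eco U x i * eco U x i) := by
    rw [inner_eq_eco hE.right]
    refine Finset.sum_congr rfl fun i _ => ?_
    rw [eco_repL hE]; ring
  refine (pow_le_pow_iff_left₀ (norm_nonneg _) (norm_nonneg _) two_ne_zero).1 ?_
  rw [← real_inner_self_eq_norm_sq, ← real_inner_self_eq_norm_sq, h, inner_eq_eco hE.right]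
  refine Finset.sum_le_sum fun i _ => mul_le_of_le_one_left (mul_self_nonneg _) ?_
  have h0 := mul_nonneg ht (hE.nonneg i)
  have h1 := mul_le_mul ht2 (hE.lam_le_one hS hμ i) (hE.nonneg i) (by norm_num)
  exact pow_le_one₀ (by linarith) (by linarith)

theorem inner_repL_comm (hμ : Car μ R) (t : ℝ) (x y : Space n) :
    inner ℝ (repL μ t x) y = inner ℝ x (repL μ t y) := by
  obtain ⟨U, lam, hE⟩ := exists_eig (posSemidef_covM hμ)
  rw [real_inner_comm (repL μ t y) x, inner_repL_eco hE, inner_repL_eco hE]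
  exact Finset.sum_congr rfl fun i _ => by ring

theorem inv_sqrt_one_sub_le {u : ℝ} (h1 : u ≤ 1 / 2) :
    (√(1 - u))⁻¹ ≤ Real.exp (u / 2 + u ^ 2) := by
  have h2 : 0 < 1 - u := by linarith
  rw [inv_le_iff_one_le_mul₀ (Real.sqrt_pos.2 h2)]
  have h3 : Real.exp (u / 2 + u ^ 2) = √(Real.exp (u + 2 * u ^ 2)) := by
    rw [← Real.exp_half]; congr 1; ring
  rw [h3, ← Real.sqrt_mul (Real.exp_pos _).le, Real.one_le_sqrt]
  have h4 := Real.add_one_le_exp (u + 2 * u ^ 2)
  nlinarith [mul_le_mul_of_nonneg_right h4 h2.le, mul_nonneg (sq_nonneg u) h2.le]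

/-- The Gaussian integral behind the coupling of two replicas. -/
theorem replica_gauss (hG : GaussQuad) {U : Mat n} {lam : Fin n → ℝ} (hE : Eig (covM μ) U lam)
    {t : ℝ} (ht : 0 ≤ t) (x y : Space n) :
    ∫ g, Real.exp (ker t (√t • g) x) * Real.exp (ker t (√t • g) y)
        * Real.exp (-(t / 2) * qA μ g) ∂gam n
      ≤ (∏ i, √(1 + t * lam i))⁻¹
        * Real.exp (t * inner ℝ (repL μ t x) y - aCor μ t x - aCor μ t y) := by
  have hc : ∀ i, -(t * lam i) < 1 := fun i => by linarith [mul_nonneg ht (hE.nonneg i)]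
  have e : ∀ g : Space n, Real.exp (ker t (√t • g) x) * Real.exp (ker t (√t • g) y)
        * Real.exp (-(t / 2) * qA μ g)
      = Real.exp (√t * inner ℝ g (x + y) - t / 2 * (‖x‖ ^ 2 + ‖y‖ ^ 2))
        * Real.exp (1 / 2 * (g.ofLp ⬝ᵥ (U * diagonal (fun i => -(t * lam i)) * Uᵀ) *ᵥ g.ofLp)) := by
    intro g
    simp only [← Real.exp_add, qA_eq_eco hE, ← sum_eco_mul, ker, real_inner_smul_left,
      inner_add_right, Finset.mul_sum]
    have e2 : ∑ i, -(t / 2) * (lam i * eco U g i ^ 2)
        = ∑ i, 1 / 2 * (-(t * lam i) * eco U g i * eco U g i) :=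
      Finset.sum_congr rfl fun i _ => by ring
    rw [e2]
    congr 1
    ring
  simp only [e]
  rw [hG n U _ hE.left hE.right hc]
  simp only [sub_neg_eq_add]
  refine mul_le_mul_of_nonneg_left ?_ (inv_nonneg.2 (Finset.prod_nonneg fun i _ => Real.sqrt_nonneg _))
  set d : Fin n → ℝ := fun i => (√(1 + t * lam i))⁻¹ with hd
  set v : Space n := WithLp.toLp 2 fun i => √t * (d i * eco U (x + y) i) with hv
  have e3 : ∀ g : Space n, √t * inner ℝ (WithLp.toLp 2 ((U * diagonal d) *ᵥ g.ofLp)) (x + y)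
      = inner ℝ v g := by
    intro g
    rw [inner_eq_eco hE.right]
    simp only [eco, hv, PiLp.inner_apply, RCLike.inner_apply, conj_trivial, WithLp.ofLp_add,
      Finset.mul_sum, Matrix.mulVec_mulVec, ← Matrix.mul_assoc, hE.left, Matrix.one_mul,
      Matrix.mulVec_diagonal]
    exact Finset.sum_congr rfl fun i _ => by ring
  have e4 : ∀ g : Space n,
      Real.exp (√t * inner ℝ (WithLp.toLp 2 ((U * diagonal d) *ᵥ g.ofLp)) (x + y)
        - t / 2 * (‖x‖ ^ 2 + ‖y‖ ^ 2))
      = Real.exp (-(t / 2 * (‖x‖ ^ 2 + ‖y‖ ^ 2))) * Real.exp (inner ℝ v g) := fun g => by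
    rw [e3, ← Real.exp_add]; congr 1; ring
  simp only [e4]
  rw [integral_const_mul, gam_exp_inner, ← Real.exp_add]
  refine Real.exp_le_exp.2 ?_
  have hv2 : ‖v‖ ^ 2 = ∑ i, t * ((1 + t * lam i)⁻¹ * eco U (x + y) i ^ 2) := by
    rw [EuclideanSpace.norm_sq_eq]
    refine Finset.sum_congr rfl fun i _ => ?_
    have h1 : 0 ≤ 1 + t * lam i := by linarith [hc i]
    simp only [hv, hd, Real.norm_eq_abs, sq_abs, mul_pow, Real.sq_sqrt ht, inv_pow, Real.sq_sqrt h1]
  have hadd : ∀ i, eco U (x + y) i = eco U x i + eco U y i := fun i => by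
    simp [eco, Matrix.mulVec_add]
  rw [hv2, inner_repL_eco hE, aCor_eq_eco hE, aCor_eq_eco hE, ← real_inner_self_eq_norm_sq,
    ← real_inner_self_eq_norm_sq, inner_eq_eco hE.right, inner_eq_eco hE.right]
  simp only [hadd, Finset.sum_div, ← Finset.sum_add_distrib, Finset.mul_sum,
    ← Finset.sum_neg_distrib, ← Finset.sum_sub_distrib]
  refine Finset.sum_le_sum fun i _ => ?_
  set w := eco U x i
  set z := eco U y i
  set s := t * lam i with hs
  have hs0 : 0 ≤ s := mul_nonneg ht (hE.nonneg i)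
  have hinv : (1 + s)⁻¹ ≤ 1 - s + s ^ 2 := by
    rw [inv_le_iff_one_le_mul₀ (by linarith)]
    nlinarith [pow_nonneg hs0 3]
  have h1 := mul_le_mul_of_nonneg_left (mul_le_mul_of_nonneg_right hinv (sq_nonneg (w + z)))
    (show 0 ≤ t / 2 by linarith)
  have h2 := mul_nonneg (show 0 ≤ t * s ^ 2 by positivity) (sq_nonneg (w - z))
  rw [show t ^ 2 / 2 * lam i - t ^ 3 * lam i ^ 2 = t / 2 * s - t * s ^ 2 by rw [hs]; ring]
  nlinarith

/-- The divergence bound from an exponential moment of the corrected log-Laplace transform. -/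
theorem renyi_replica (hG : GaussQuad) (hμ : Car μ R) (hS : Sub1 μ) {t s : ℝ} (ht : 0 < t)
    (ht4 : t ≤ 1 / 4) (h : ∫ y, Real.exp (repF μ t y - aCor μ t y) ∂μ ≤ Real.exp s) :
    RenyiLe μ t (s + t ^ 2 / 2 * covT μ + t ^ 4 * n) := by
  have := hμ.prob
  obtain ⟨U, lam, hE⟩ := exists_eig (posSemidef_covM hμ)
  have hl1 := fun i => hE.lam_le_one hS hμ i
  have htl : ∀ i, 0 ≤ t * lam i ∧ t * lam i ≤ 1 / 4 := fun i =>
    ⟨mul_nonneg ht.le (hE.nonneg i),
      (mul_le_mul ht4 (hl1 i) (hE.nonneg i) (by norm_num)).trans (by norm_num)⟩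
  set k : Space n → Space n → ℝ := fun g x => Real.exp (ker t (√t • g) x) with hk
  set q : Space n → ℝ := fun g => Real.exp (-(t / 2) * qA μ g) with hq
  have hZ : ∀ g, Zf μ (t, √t • g) ^ 2 * q g = ∫ z, k g z.1 * k g z.2 * q g ∂μ.prod μ := fun g => by
    rw [integral_mul_const, integral_prod_mul, sq]
    simp [Zf, Nf, hk]
  have hR0 := hμ.nonneg
  have hkc : Continuous fun w : Space n × Space n => k w.1 w.2 := by
    simp only [hk, ker]; fun_prop
  have hint : Integrable (Function.uncurry fun (g : Space n) (z : Space n × Space n) =>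
      k g z.1 * k g z.2 * q g) ((gam n).prod (μ.prod μ)) := by
    have hb : ∀ᵐ z ∂μ.prod μ, ‖z.1‖ ≤ R ∧ ‖z.2‖ ≤ R :=
      (Measure.quasiMeasurePreserving_fst.ae hμ.bd).and (Measure.quasiMeasurePreserving_snd.ae hμ.bd)
    refine Integrable.mono' (g := fun w : Space n × (Space n × Space n) =>
      Real.exp (2 * (√t * R) * ‖w.1‖)) ((integrable_exp_norm _).comp_fst _) ?_ ?_
    · refine Continuous.aestronglyMeasurable ?_
      simp only [Function.uncurry_def, hk, hq, ker]
      fun_prop
    · filter_upwards [Measure.quasiMeasurePreserving_snd.ae hb] with w hw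
      simp only [Function.uncurry, hk, hq, Real.norm_eq_abs, ← Real.exp_add, Real.abs_exp]
      refine Real.exp_le_exp.2 ?_
      have hker : ∀ x : Space n, ‖x‖ ≤ R → ker t (√t • w.1) x ≤ √t * R * ‖w.1‖ := fun x hx => by
        rw [ker, real_inner_smul_left]
        have h1 := mul_le_mul_of_nonneg_left ((real_inner_le_norm w.1 x).trans
          (mul_le_mul_of_nonneg_left hx (norm_nonneg _))) (Real.sqrt_nonneg t)
        have h2 : 0 ≤ t * ‖x‖ ^ 2 / 2 := by positivity
        linarith
      have := hker _ hw.1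
      have := hker _ hw.2
      have : 0 ≤ t / 2 * qA μ w.1 := mul_nonneg (by linarith) (qA_nonneg hμ _)
      linarith
  set N1 := (∏ i, √(1 + t * lam i))⁻¹ with hN1
  set N2 := (∏ i, √(1 - t * lam i))⁻¹ with hN2
  have hN10 : 0 ≤ N1 := inv_nonneg.2 (Finset.prod_nonneg fun i _ => Real.sqrt_nonneg _)
  set a := aCor μ t with ha
  have hac : Continuous a := continuous_aCor μ t
  have hA1 : ∫ g, Zf μ (t, √t • g) ^ 2 * q g ∂gam n ≤ N1 * Real.exp s := by
    simp only [hZ]
    rw [integral_integral_swap hint]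
    refine le_trans ?_ (mul_le_mul_of_nonneg_left h hN10)
    set G : Space n × Space n → ℝ := fun z =>
      Real.exp (t * inner ℝ (repL μ t z.1) z.2 - a z.1 - a z.2) with hGdef
    have hGc : Continuous G := by simp only [hGdef]; fun_prop
    have hGi : Integrable G (μ.prod μ) := by
      obtain ⟨C, hC⟩ := ((isCompact_closedBall (0 : Space n) R).prod
        (isCompact_closedBall (0 : Space n) R)).exists_bound_of_continuousOn hGc.continuousOn
      refine Integrable.of_bound hGc.aestronglyMeasurable C ?_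
      filter_upwards [Measure.quasiMeasurePreserving_fst.ae hμ.bd,
        Measure.quasiMeasurePreserving_snd.ae hμ.bd] with z h1 h2
      exact hC z ⟨by simpa using h1, by simpa using h2⟩
    calc ∫ z, ∫ g, k g z.1 * k g z.2 * q g ∂gam n ∂μ.prod μ
        ≤ ∫ z, N1 * G z ∂μ.prod μ :=
          integral_mono_of_nonneg
            (ae_of_all _ fun z => integral_nonneg fun g => by simp only [hk, hq]; positivity)
            (hGi.const_mul _) (ae_of_all _ fun z => replica_gauss hG hE ht.le z.1 z.2)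
      _ = N1 * ∫ y, ∫ x, G (x, y) ∂μ ∂μ := by rw [integral_const_mul, integral_prod_symm _ hGi]
      _ = N1 * ∫ y, Real.exp (repF μ t y - a y) ∂μ := by
          congr 1
          refine integral_congr_ae (ae_of_all _ fun y => ?_)
          have hpos : 0 < ∫ x, Real.exp (t * inner ℝ (repL μ t x) y - a x) ∂μ :=
            integral_exp_pos (hμ.int_cont (by fun_prop))
          simp only [hGdef, repF, ← ha]
          rw [Real.exp_sub, Real.exp_log hpos, ← integral_div]
          exact integral_congr_ae (ae_of_all _ fun x => Real.exp_sub _ _)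
  have hA2 : ∫ g, Real.exp (t / 2 * qA μ g) ∂gam n = N2 := by
    have h' := hG n U (fun i => t * lam i) hE.left hE.right (fun i => by linarith [(htl i).2])
      fun _ => 1
    simp only [one_mul, integral_const, probReal_univ, smul_eq_mul, mul_one] at h'
    rw [hN2, ← h']
    refine integral_congr_ae (ae_of_all _ fun g => ?_)
    simp only [← sum_eco_mul, qA_eq_eco hE, Finset.mul_sum]
    congr 1
    exact Finset.sum_congr rfl fun i _ => by ring
  show (∫ g, Zf μ (t, √t • g) ^ 2 * q g ∂gam n) * _ ≤ _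
  rw [hA2]
  refine (mul_le_mul_of_nonneg_right hA1
    (inv_nonneg.2 (Finset.prod_nonneg fun i _ => Real.sqrt_nonneg _))).trans ?_
  rw [show N1 * Real.exp s * N2 = Real.exp s * (N1 * N2) by ring, add_assoc, Real.exp_add]
  refine mul_le_mul_of_nonneg_left ?_ (Real.exp_pos _).le
  have e : N1 * N2 = ∏ i, (√(1 - (t * lam i) ^ 2))⁻¹ := by
    rw [hN1, hN2, ← mul_inv, ← Finset.prod_mul_distrib, ← Finset.prod_inv_distrib]
    refine Finset.prod_congr rfl fun i _ => ?_
    rw [← Real.sqrt_mul (by linarith [(htl i).1])]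
    congr 2
    ring
  rw [e]
  refine (Finset.prod_le_prod (fun i _ => inv_nonneg.2 (Real.sqrt_nonneg _))
    fun i _ => inv_sqrt_one_sub_le
      (by nlinarith [(htl i).1, (htl i).2])).trans ?_
  rw [← Real.exp_sum, covT_eq hE hS hμ]
  refine Real.exp_le_exp.2 ?_
  rw [Finset.mul_sum, show t ^ 4 * (n : ℝ) = ∑ _i : Fin n, t ^ 4 by simp [mul_comm],
    ← Finset.sum_add_distrib]
  refine Finset.sum_le_sum fun i _ => ?_
  have h4 : lam i ^ 4 ≤ 1 := pow_le_one₀ (hE.nonneg i) (hl1 i)
  nlinarith [mul_le_mul_of_nonneg_left h4 (pow_nonneg ht.le 4)]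

/-- Elementary bounds on the corrected log-Laplace transform. -/
theorem repF_bounds (hμ : Car μ R) (hS : Sub1 μ) {t : ℝ} (ht : 0 ≤ t) (ht2 : t ≤ 1 / 2) (y : Space n) :
    -(t ^ 2 / 2 * n) ≤ repF μ t y ∧ repF μ t y ≤ t ^ 2 * ‖y‖ ^ 2 := by
  have := hμ.prob
  have hi : ∀ f : Space n → ℝ, Continuous f → Integrable f μ := fun f hf => hμ.int_cont hf
  have hpos : 0 < ∫ x, Real.exp (t * inner ℝ (repL μ t x) y - aCor μ t x) ∂μ :=
    integral_exp_pos (hi _ (by fun_prop))
  constructor
  · rw [repF, Real.le_log_iff_exp_le hpos]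
    have hm : ∫ x, (t * inner ℝ (repL μ t x) y - aCor μ t x) ∂μ ≥ -(t ^ 2 / 2 * n) := by
      have h0 : ∫ x, inner ℝ (repL μ t x) y ∂μ = 0 := by
        have e : ∀ x, inner ℝ (repL μ t x) y = inner ℝ (repL μ t y) x := fun x => by
          rw [inner_repL_comm hμ, real_inner_comm]
        simp only [e]
        rw [integral_inner (f := fun x : Space n => x)
          (integrable_of_ball hμ.bd continuous_id) (repL μ t y), hS.1, inner_zero_right]
      have h1 : ∫ x, aCor μ t x ∂μ ≤ t ^ 2 / 2 * covT μ := by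
        rw [covT, ← integral_const_mul]
        refine integral_mono (hi _ (by fun_prop)) (hi _ (by fun_prop)) fun x => ?_
        simp only [aCor]
        have : 0 ≤ t ^ 3 * ‖covL μ x‖ ^ 2 := by positivity
        linarith
      rw [integral_sub (hi _ (by fun_prop)) (hi _ (by fun_prop)), integral_const_mul, h0, mul_zero,
        zero_sub]
      have := mul_le_mul_of_nonneg_left (covT_le hS hμ).2 (show 0 ≤ t ^ 2 / 2 by positivity)
      linarith
    refine le_trans (Real.exp_le_exp.2 hm) ?_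
    exact convexOn_exp.map_integral_le Real.continuous_exp.continuousOn isClosed_univ
      (ae_of_all _ fun _ => mem_univ _) (hi _ (by fun_prop)) (hi _ (by fun_prop))
  · rw [repF, Real.log_le_iff_le_exp hpos]
    refine le_trans (integral_mono (hi _ (by fun_prop))
      (hi (fun x => Real.exp (inner ℝ (t • repL μ t y) x)) (by fun_prop)) fun x => ?_) ?_
    · refine Real.exp_le_exp.2 ?_
      rw [real_inner_smul_left, inner_repL_comm hμ, real_inner_comm]
      linarith [aCor_nonneg hS hμ ht2 x]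
    · refine (hS.mgf hμ _).trans (Real.exp_le_exp.2 ?_)
      rw [norm_smul, mul_pow, Real.norm_eq_abs, sq_abs]
      exact mul_le_mul_of_nonneg_left
        (pow_le_pow_left₀ (norm_nonneg _) (norm_repL_le hS hμ ht ht2 y) 2) (sq_nonneg t)

theorem renyiCrude_of (hG : GaussQuad) (hX : ExpSqBound) : RenyiCrude := by
  refine ⟨8, by norm_num, fun n μ R _ _ hS hμ t ht htC => ?_⟩
  have := hμ.prob
  have ht8 : t ≤ 1 / 8 := by linarith
  have hb := fun y => (repF_bounds hμ hS ht.le (by linarith) y).2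
  have ha := aCor_nonneg hS hμ (show t ≤ 1 / 2 by linarith)
  have hF : Continuous fun y => repF μ t y := by
    have e : (fun y => repF μ t y) = fun y =>
        Real.log (Nf μ (fun x => Real.exp (-aCor μ t x)) (0, t • repL μ t y)) := by
      funext y
      rw [repF, Nf]
      congr 1
      refine integral_congr_ae (ae_of_all _ fun x => ?_)
      simp only [← Real.exp_add, ker, real_inner_smul_left, inner_repL_comm hμ t x y,
        real_inner_comm (repL μ t y) x]
      congr 1
      ring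
    rw [e]
    exact ((differentiable_Nf hμ (adm_continuous (by fun_prop) R)).continuous.comp (by fun_prop)).log
      fun y => (Nf_pos hμ (by fun_prop) (fun x => Real.exp_pos _) _).ne'
  have h := renyi_replica hG hμ hS ht (by linarith) (s := 4 * t ^ 2 * n) ((integral_mono
    (hμ.int_cont (by fun_prop)) (hμ.int_cont (f := fun y => Real.exp (t ^ 2 * ‖y‖ ^ 2)) (by fun_prop))
    fun y => Real.exp_le_exp.2 (by linarith [hb y, ha y])).trans
    (hX n μ R (t ^ 2) hμ hS (sq_nonneg t) (by nlinarith)))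
  refine h.trans (Real.exp_le_exp.2 ?_)
  have h1 := mul_le_mul_of_nonneg_left (covT_le hS hμ).2 (show 0 ≤ t ^ 2 / 2 by positivity)
  have h2 : t ^ 4 * n ≤ t ^ 2 * n := mul_le_mul_of_nonneg_right
    (pow_le_pow_of_le_one ht.le (by linarith) (by norm_num)) (Nat.cast_nonneg n)
  have h3 : 0 ≤ t ^ 2 * (n : ℝ) := by positivity
  linarith

end Vale.Agent.P245
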